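import Vale.Agent.P273.D14.H741.ZDefs
import Mathlib.Logic.Equiv.Bool

/-!
Combinatorics of the limit: sums over the theta graphs `th p q σ`, with arbitrary places of the two
legs of the core, for functionals invariant under isomorphisms, with values in any abelian group.
-/

namespace Vale.Agent.P273.H93

open Sum Vale.Agent.P273.Z

/-- Undecorated graphs with 9 edges, 8 vertices and 14 legs. -/
abbrev Gr : Type := ((Fin 3 ⊕ Fin 6) × Bool) ⊕ (Fin 7 × Bool) → Option (Fin 7)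

variable {M : Type*} [AddCommGroup M]

/-- Invariance under isomorphisms. -/
def Inv (F : Gr → M) : Prop :=
  ∀ (u : Equiv.Perm (Option (Fin 7))) (ρ : Equiv.Perm ((Fin 3 ⊕ Fin 6) × Bool)),
    (∀ e, (ρ (e, true)).1 = (ρ (e, false)).1) → ∀ h h' : Gr,
    (∀ y, h' (y.map ρ id) = u (h y)) → F h = F h'

/-- The vertex of a leg of type `b` with the position `t`: the position `6` is the core `some 6` if
`e b` is true, and the core `none` otherwise. -/
def lg (e : Bool → Bool) (b : Bool) (t : Fin 7) : Option (Fin 7) :=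
  if t = 6 ∧ e b = false then none else some t

/-- The vertex of a half-edge of the theta graph. -/
def he (p q : ℕ) (y : (Fin 3 ⊕ Fin 6) × Bool) : Option (Fin 7) :=
  cond y.2 (y.1.elim (fun _ => none) fun t => some t.castSucc) (some (hd p q y.1))

/-- The theta graph, with the legs of the core at the places given by `e`. -/
def thE (e : Bool → Bool) (p q : ℕ) (σ : Bool → Equiv.Perm (Fin 7)) : Gr :=
  Sum.elim (he p q) fun x => lg e x.2 (σ x.2 x.1)

theorem thE_true (p q : ℕ) (σ : Bool → Equiv.Perm (Fin 7)) : thE (fun _ => true) p q σ = th p q σ := by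
  funext y
  rcases y with y | x
  · rfl
  · simp [thE, lg, th]

/-- The sign. -/
def sgn (σ : Bool → Equiv.Perm (Fin 7)) : ℤ := Equiv.Perm.sign (σ true) * Equiv.Perm.sign (σ false)

/-- The antisymmetrization. -/
def ES (e : Bool → Bool) (p q : ℕ) (F : Gr → M) : M := ∑ σ, sgn σ • F (thE e p q σ)

theorem sum_mul (π : Equiv.Perm (Fin 7)) (G : (Bool → Equiv.Perm (Fin 7)) → M) :
    ∑ σ, sgn σ • G (fun b => π * σ b) = ∑ σ, sgn σ • G σ := by
  let μ : (Bool → Equiv.Perm (Fin 7)) ≃ (Bool → Equiv.Perm (Fin 7)) :=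
    Equiv.piCongrRight fun _ => Equiv.mulLeft π
  rw [← Equiv.sum_comp μ (fun σ => sgn σ • G σ)]
  refine Finset.sum_congr rfl fun σ _ => ?_
  have h : sgn (μ σ) = sgn σ := by
    unfold sgn
    change ((Equiv.Perm.sign (π * σ true) : ℤˣ) * (Equiv.Perm.sign (π * σ false) : ℤˣ) : ℤ) = _
    rw [Equiv.Perm.sign_mul, Equiv.Perm.sign_mul]
    have : ((Equiv.Perm.sign π : ℤˣ) : ℤ) * (Equiv.Perm.sign π : ℤˣ) = 1 := by
      rw [← Units.val_mul, Int.units_mul_self]; rfl
    push_cast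
    calc _ = (((Equiv.Perm.sign π : ℤˣ) : ℤ) * (Equiv.Perm.sign π : ℤˣ)) *
        (((Equiv.Perm.sign (σ true) : ℤˣ) : ℤ) * ((Equiv.Perm.sign (σ false) : ℤˣ) : ℤ)) := by ring
      _ = _ := by rw [this, one_mul]
  rw [h]
  rfl

/-- An isomorphism of the graphs without legs gives an equality of the antisymmetrizations. -/
theorem ES_iso {F : Gr → M} (hF : Inv F) {e e' : Bool → Bool} {p q p' q' : ℕ}
    (π : Equiv.Perm (Fin 7)) (u : Equiv.Perm (Option (Fin 7)))
    (ρ : Equiv.Perm ((Fin 3 ⊕ Fin 6) × Bool)) (hρ : ∀ e, (ρ (e, true)).1 = (ρ (e, false)).1)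
    (h1 : ∀ y, he p' q' (ρ y) = u (he p q y)) (h2 : ∀ b t, lg e' b (π t) = u (lg e b t)) :
    ES e p q F = ES e' p' q' F := by
  unfold ES
  rw [← sum_mul π fun σ => F (thE e' p' q' σ)]
  refine Finset.sum_congr rfl fun σ _ => ?_
  refine congrArg (sgn σ • ·) (hF u ρ hρ _ _ fun y => ?_)
  rcases y with y | x
  · exact h1 y
  · exact h2 x.2 (σ x.2 x.1)

/-! ### Exchange of the first two chains -/

/-- The inner vertices. -/
def swF (p q : ℕ) (n : ℕ) : ℕ := if n < p then n + (q - p) else if n < q then n - p else n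

def sw7 (p q : ℕ) (t : Fin 7) : Fin 7 := Fin.ofNat 7 (swF p q t)

def swE (p q : ℕ) : Fin 3 ⊕ Fin 6 → Fin 3 ⊕ Fin 6 :=
  Sum.map ![1, 0, 2] fun t => Fin.ofNat 6 (swF p q t)

theorem sw7_inj : ∀ p q : Fin 7, p ≤ q → ∀ t u, sw7 p q t = sw7 p q u → t = u := by decide

theorem swE_inj : ∀ p q : Fin 7, p ≤ q → ∀ t u, swE p q t = swE p q u → t = u := by decide +kernel

theorem sw_he : ∀ p q : Fin 7, p ≤ q → ∀ (e : Fin 3 ⊕ Fin 6) (s : Bool),
    he (q.1 - p.1) q.1 (swE p q e, s) = (he p q (e, s)).map (sw7 p q) := by decide +kernel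

theorem sw_lg : ∀ p q : Fin 7, p ≤ q → ∀ b c t,
    lg (fun _ => c) b (sw7 p q t) = (lg (fun _ => c) b t).map (sw7 p q) := by decide +kernel

theorem lg_const (e : Bool → Bool) (b : Bool) (t : Fin 7) : lg e b t = lg (fun _ => e b) b t := rfl

theorem ES_swap {F : Gr → M} (hF : Inv F) (e : Bool → Bool) (p q : ℕ) (hp : p ≤ q) (hq : q ≤ 6) :
    ES e p q F = ES e (q - p) q F := by
  let P : Fin 7 := ⟨p, by omega⟩
  let Q' : Fin 7 := ⟨q, by omega⟩
  have hPQ : P ≤ Q' := hp
  let π : Equiv.Perm (Fin 7) := Equiv.ofBijective (sw7 p q)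
    (Finite.injective_iff_bijective.1 fun t u h => sw7_inj P Q' hPQ t u h)
  let ρ : Equiv.Perm (Fin 3 ⊕ Fin 6) := Equiv.ofBijective (swE p q)
    (Finite.injective_iff_bijective.1 fun t u h => swE_inj P Q' hPQ t u h)
  refine ES_iso hF π (Equiv.optionCongr π) (Equiv.prodCongr ρ (Equiv.refl _)) (fun _ => rfl)
    (fun y => sw_he P Q' hPQ y.1 y.2) fun b t => ?_
  rw [lg_const e, lg_const e b t]
  exact sw_lg P Q' hPQ b (e b) t

/-! ### Rotation of the three chains -/

def roF (q : ℕ) (n : ℕ) : ℕ := (n + (6 - q)) % 6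

def ro7 (q : ℕ) (t : Fin 7) : Fin 7 := if t = 6 then 6 else Fin.ofNat 7 (roF q t)

def roE (q : ℕ) : Fin 3 ⊕ Fin 6 → Fin 3 ⊕ Fin 6 :=
  Sum.map ![1, 2, 0] fun t => Fin.ofNat 6 (roF q t)

theorem ro7_inj : ∀ q : Fin 7, ∀ t u, ro7 q t = ro7 q u → t = u := by decide

theorem roE_inj : ∀ q : Fin 7, ∀ t u, roE q t = roE q u → t = u := by decide +kernel

theorem ro_he : ∀ p q : Fin 7, p ≤ q → ∀ (e : Fin 3 ⊕ Fin 6) (s : Bool),
    he (6 - q.1) (6 - q.1 + p.1) (roE q e, s) = (he p q (e, s)).map (ro7 q) := by decide +kernel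

theorem ro_lg : ∀ q : Fin 7, ∀ b c t,
    lg (fun _ => c) b (ro7 q t) = (lg (fun _ => c) b t).map (ro7 q) := by decide +kernel

theorem ES_rot {F : Gr → M} (hF : Inv F) (e : Bool → Bool) (p q : ℕ) (hp : p ≤ q) (hq : q ≤ 6) :
    ES e p q F = ES e (6 - q) (6 - q + p) F := by
  let P : Fin 7 := ⟨p, by omega⟩
  let Q' : Fin 7 := ⟨q, by omega⟩
  have hPQ : P ≤ Q' := hp
  let π : Equiv.Perm (Fin 7) := Equiv.ofBijective (ro7 q)
    (Finite.injective_iff_bijective.1 fun t u h => ro7_inj Q' t u h)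
  let ρ : Equiv.Perm (Fin 3 ⊕ Fin 6) := Equiv.ofBijective (roE q)
    (Finite.injective_iff_bijective.1 fun t u h => roE_inj Q' t u h)
  refine ES_iso hF π (Equiv.optionCongr π) (Equiv.prodCongr ρ (Equiv.refl _)) (fun _ => rfl)
    (fun y => ro_he P Q' hPQ y.1 y.2) fun b t => ?_
  rw [lg_const e, lg_const e b t]
  exact ro_lg Q' b (e b) t

/-! ### Reversal of all chains (exchange of the two cores) -/

/-- The bounds of the chain of the inner vertex `n`. -/
def lo (p q n : ℕ) : ℕ := if n < p then 0 else if n < q then p else q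

def hi (p q n : ℕ) : ℕ := if n < p then p else if n < q then q else 6

def re7 (p q : ℕ) (t : Fin 7) : Fin 7 :=
  if t = 6 then 6 else Fin.ofNat 7 (lo p q t + hi p q t - 1 - t)

def reU (p q : ℕ) : Option (Fin 7) → Option (Fin 7)
  | none => some 6
  | some t => if t = 6 then none else some (re7 p q t)

def reE (p q : ℕ) : Fin 3 ⊕ Fin 6 → Fin 3 ⊕ Fin 6
  | inl 0 => if p = 0 then inl 0 else inr (Fin.ofNat 6 (p - 1))
  | inl 1 => if p = q then inl 1 else inr (Fin.ofNat 6 (q - 1))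
  | inl 2 => if q = 6 then inl 2 else inr 5
  | inr t => if t.1 + 1 = hi p q t then
      (if t.1 < p then inl 0 else if t.1 < q then inl 1 else inl 2)
    else inr (Fin.ofNat 6 (lo p q t + hi p q t - 2 - t))

theorem re7_inj : ∀ p q : Fin 7, p ≤ q → ∀ t u, re7 p q t = re7 p q u → t = u := by decide +kernel

theorem reU_inj : ∀ p q : Fin 7, p ≤ q → ∀ t u, reU p q t = reU p q u → t = u := by decide +kernel

theorem reE_inj : ∀ p q : Fin 7, p ≤ q → ∀ t u, reE p q t = reE p q u → t = u := by decide +kernel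

theorem re_he : ∀ p q : Fin 7, p ≤ q → ∀ (e : Fin 3 ⊕ Fin 6) (s : Bool),
    he p q (reE p q e, !s) = reU p q (he p q (e, s)) := by decide +kernel

theorem re_lg : ∀ p q : Fin 7, p ≤ q → ∀ b c t,
    lg (fun _ => !c) b (re7 p q t) = reU p q (lg (fun _ => c) b t) := by decide +kernel

theorem ES_rev {F : Gr → M} (hF : Inv F) (e : Bool → Bool) (p q : ℕ) (hp : p ≤ q) (hq : q ≤ 6) :
    ES e p q F = ES (fun b => !e b) p q F := by
  let P : Fin 7 := ⟨p, by omega⟩
  let Q' : Fin 7 := ⟨q, by omega⟩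
  have hPQ : P ≤ Q' := hp
  let π : Equiv.Perm (Fin 7) := Equiv.ofBijective (re7 p q)
    (Finite.injective_iff_bijective.1 fun t u h => re7_inj P Q' hPQ t u h)
  let U : Equiv.Perm (Option (Fin 7)) := Equiv.ofBijective (reU p q)
    (Finite.injective_iff_bijective.1 fun t u h => reU_inj P Q' hPQ t u h)
  let ρ : Equiv.Perm (Fin 3 ⊕ Fin 6) := Equiv.ofBijective (reE p q)
    (Finite.injective_iff_bijective.1 fun t u h => reE_inj P Q' hPQ t u h)
  refine ES_iso hF π U (Equiv.prodCongr ρ Equiv.boolNot) (fun _ => rfl)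
    (fun y => re_he P Q' hPQ y.1 y.2) fun b t => ?_
  rw [lg_const, lg_const e b t]
  exact re_lg P Q' hPQ b (e b) t

/-! ### The limit and the element `x'` -/

/-- The four places of the two legs of the core, with signs. -/
def DS (p q : ℕ) (G : Gr → ℝ) : ℝ :=
  ES (fun _ => true) p q G + ES (fun _ => false) p q G - ES (fun b => b) p q G -
    ES (fun b => !b) p q G

/-- Both legs at the core `some 6`, minus the leg `(i, false)` moved to the core `none`. -/
def DD (p q : ℕ) (G : Gr → ℝ) : ℝ := ES (fun _ => true) p q G - ES (fun b => b) p q G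

theorem DS_eq {G : Gr → ℝ} (hG : Inv G) (p q : ℕ) (hp : p ≤ q) (hq : q ≤ 6) :
    DS p q G = 2 * DD p q G := by
  have h1 := ES_rev hG (fun _ => true) p q hp hq
  have h2 := ES_rev hG (fun b => b) p q hp hq
  simp only [Bool.not_true] at h1
  unfold DS DD
  linarith

/-- The value at `x'`: the combination with the coefficients `1, -2, 1, 1, -1`. -/
def onX' (G : Gr → ℝ) : ℝ := DD 2 4 G - 2 * DD 1 3 G + DD 0 3 G + DD 1 2 G - DD 0 2 G

theorem onX'_eq (G : Gr → ℝ) : onX' G = ∑ σ : Bool → Equiv.Perm (Fin 7),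
    ((Equiv.Perm.sign (σ true) * Equiv.Perm.sign (σ false) : ℤ) : ℝ) *
    ((G (th 2 4 σ) - 2 * G (th 1 3 σ) + G (th 0 3 σ) + G (th 1 2 σ) - G (th 0 2 σ)) -
    (G (thE (fun b => b) 2 4 σ) - 2 * G (thE (fun b => b) 1 3 σ) + G (thE (fun b => b) 0 3 σ) +
      G (thE (fun b => b) 1 2 σ) - G (thE (fun b => b) 0 2 σ))) := by
  unfold onX' DD ES
  simp only [zsmul_eq_mul, thE_true, sgn]
  simp only [← Finset.sum_sub_distrib, ← Finset.sum_add_distrib, Finset.mul_sum]
  refine Finset.sum_congr rfl fun σ _ => ?_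
  push_cast
  ring

/-- The output of the limit gives the vanishing at `x'`: only the sums of the coefficients over the
orders of the three chains matter. -/
theorem lim_onX {G : Gr → ℝ} (hG : Inv G) (C : ℕ → ℕ → ℝ) (K : ℝ) (hK : K ≠ 0)
    (h006 : C 0 0 + C 0 6 + C 6 6 = 0)
    (h015 : C 0 1 + C 0 5 + C 1 1 + C 1 6 + C 5 5 + C 5 6 = 0)
    (h024 : C 0 2 + C 0 4 + C 2 2 + C 2 6 + C 4 4 + C 4 6 = -K)
    (h033 : C 0 3 + C 3 3 + C 3 6 = K) (h114 : C 1 2 + C 1 5 + C 4 5 = K)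
    (h123 : C 1 3 + C 1 4 + C 2 3 + C 2 5 + C 3 4 + C 3 5 = -2 * K) (h222 : C 2 4 = K)
    (h : ∑ q ∈ Finset.range 7, ∑ p ∈ Finset.range (q + 1), C p q * DS p q G = 0) :
    onX' G = 0 := by
  obtain ⟨D, hD⟩ : ∃ D : ℕ → ℕ → ℝ, ∀ p q, D p q = DD p q G := ⟨_, fun _ _ => rfl⟩
  have hswap : ∀ p q, p ≤ q → q ≤ 6 → D p q = D (q - p) q := fun p q hp hq => by
    rw [hD, hD]
    unfold DD
    rw [ES_swap hG _ p q hp hq, ES_swap hG (fun b => b) p q hp hq]
  have hrot : ∀ p q, p ≤ q → q ≤ 6 → D p q = D (6 - q) (6 - q + p) := fun p q hp hq => by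
    rw [hD, hD]
    unfold DD
    rw [ES_rot hG _ p q hp hq, ES_rot hG (fun b => b) p q hp hq]
  have h' : ∑ q ∈ Finset.range 7, ∑ p ∈ Finset.range (q + 1), C p q * (2 * D p q) = 0 := by
    rw [← h]
    refine Finset.sum_congr rfl fun q hq => Finset.sum_congr rfl fun p hp => ?_
    rw [Finset.mem_range] at hq hp
    rw [DS_eq hG p q (by omega) (by omega), hD]
  have h23 : D 2 3 = D 1 3 := (hswap 1 3 (by norm_num) (by norm_num)).symm
  have h34 : D 3 4 = D 1 3 := (hrot 1 3 (by norm_num) (by norm_num)).symm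
  have h35 : D 3 5 = D 1 3 := (hrot 2 3 (by norm_num) (by norm_num)).symm.trans h23
  have h14 : D 1 4 = D 1 3 := (hswap 3 4 (by norm_num) (by norm_num)).symm.trans h34
  have h25 : D 2 5 = D 1 3 := (hrot 3 4 (by norm_num) (by norm_num)).symm.trans h34
  have h33 : D 3 3 = D 0 3 := (hswap 0 3 (by norm_num) (by norm_num)).symm
  have h36 : D 3 6 = D 0 3 := (hrot 3 3 (by norm_num) (by norm_num)).symm.trans h33
  have h45 : D 4 5 = D 1 2 := (hrot 1 2 (by norm_num) (by norm_num)).symm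
  have h15 : D 1 5 = D 1 2 := (hswap 4 5 (by norm_num) (by norm_num)).symm.trans h45
  have h22 : D 2 2 = D 0 2 := (hswap 0 2 (by norm_num) (by norm_num)).symm
  have h44 : D 4 4 = D 0 2 := (hrot 0 2 (by norm_num) (by norm_num)).symm
  have h46 : D 4 6 = D 0 2 := (hrot 2 2 (by norm_num) (by norm_num)).symm.trans h22
  have h04 : D 0 4 = D 0 2 := (hswap 4 4 (by norm_num) (by norm_num)).symm.trans h44
  have h26 : D 2 6 = D 0 2 := (hrot 4 4 (by norm_num) (by norm_num)).symm.trans h44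
  have h11 : D 1 1 = D 0 1 := (hswap 0 1 (by norm_num) (by norm_num)).symm
  have h55 : D 5 5 = D 0 1 := (hrot 0 1 (by norm_num) (by norm_num)).symm
  have h56 : D 5 6 = D 0 1 := (hrot 1 1 (by norm_num) (by norm_num)).symm.trans h11
  have h05 : D 0 5 = D 0 1 := (hswap 5 5 (by norm_num) (by norm_num)).symm.trans h55
  have h16 : D 1 6 = D 0 1 := (hrot 5 5 (by norm_num) (by norm_num)).symm.trans h55
  have h66 : D 6 6 = D 0 0 := (hrot 0 0 (by norm_num) (by norm_num)).symm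
  have h06 : D 0 6 = D 0 0 := (hswap 6 6 (by norm_num) (by norm_num)).symm.trans h66
  simp only [Finset.sum_range_succ, Finset.sum_range_zero, zero_add] at h'
  rw [h23, h34, h35, h14, h25, h33, h36, h45, h15, h22, h44, h46, h04, h26, h11, h55, h56, h05, h16,
    h66, h06] at h'
  unfold onX'
  simp only [← hD]
  have : 2 * K * (D 2 4 - 2 * D 1 3 + D 0 3 + D 1 2 - D 0 2) = 0 := by
    linear_combination h' - 2 * D 0 0 * h006 - 2 * D 0 1 * h015 - 2 * D 0 2 * h024 -
      2 * D 0 3 * h033 - 2 * D 1 2 * h114 - 2 * D 1 3 * h123 - 2 * D 2 4 * h222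
  rcases mul_eq_zero.1 this with h0 | h0
  · exact absurd (by linarith : K = 0) hK
  · exact h0

end Vale.Agent.P273.H93
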