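import Vale.Agent.P273.H93.Comb

/-!
Regions of the fibre (places and orders of the 14 marks on the two cores and the three necks), with
sets of gaps, and the good ones.
-/

namespace Vale.Agent.P273.H93

open Sum Finset

/-- The marks: `(i, true)` is `A_i` and `(i, false)` is `B_i`. -/
abbrev Mk : Type := Fin 7 × Bool

/-- A region: the zone of each mark (`inl k` is the neck `k`, `inr false` the core `none`, `inr true`
the core `some 6`) and its rank in the neck, counted from the core `none`. -/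
@[ext] structure Reg where
  /-- The zone. -/
  pl : Mk → Fin 3 ⊕ Bool
  /-- The rank. -/
  rk : Mk → ℕ
  core : ∀ x b, pl x = inr b → rk x = 0
  inj : ∀ x y k, pl x = inl k → pl y = inl k → rk x = rk y → x = y
  lt : ∀ x k, pl x = inl k → rk x < (univ.filter fun y => pl y = inl k).card

/-- The number of marks in the neck `k`. -/
def Reg.n (R : Reg) (k : Fin 3) : ℕ := (univ.filter fun y => R.pl y = inl k).card

theorem Reg.lt_n (R : Reg) {x : Mk} {k : Fin 3} (h : R.pl x = inl k) : R.rk x < R.n k := R.lt x k h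

/-- There is a mark of each rank. -/
theorem Reg.exists_rk (R : Reg) {k : Fin 3} {i : ℕ} (hi : i < R.n k) :
    ∃ x, R.pl x = inl k ∧ R.rk x = i := by
  have h1 : (univ.filter fun y => R.pl y = inl k).image R.rk = range (R.n k) := by
    refine Finset.eq_of_subset_of_card_le (fun j hj => ?_) ?_
    · obtain ⟨x, hx, rfl⟩ := Finset.mem_image.1 hj
      exact Finset.mem_range.2 (R.lt_n (Finset.mem_filter.1 hx).2)
    · rw [Finset.card_range, Finset.card_image_of_injOn]
      · exact le_rfl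
      · intro x hx y hy hxy
        exact R.inj x y k (Finset.mem_filter.1 (Finset.mem_coe.1 hx)).2
          (Finset.mem_filter.1 (Finset.mem_coe.1 hy)).2 hxy
  have h2 : i ∈ (univ.filter fun y => R.pl y = inl k).image R.rk := by
    rw [h1]; exact Finset.mem_range.2 hi
  obtain ⟨x, hx, h⟩ := Finset.mem_image.1 h2
  exact ⟨x, (Finset.mem_filter.1 hx).2, h⟩

/-- A region with a nonempty set of gaps in each neck (the gap `i` is just before the mark of rank
`i`). -/
@[ext] structure RB extends Reg where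
  /-- The gaps. -/
  B : Fin 3 → Finset ℕ
  sub : ∀ k, ∀ i ∈ B k, i ≤ (univ.filter fun y => pl y = inl k).card
  ne : ∀ k, (B k).Nonempty

variable (T : RB)

/-- The number of gaps of `B` before the rank `i`. -/
def RB.cnt (k : Fin 3) (i : ℕ) : ℕ := ((T.B k).filter (· ≤ i)).card

/-- The component of the mark `x` after the contraction of the gaps outside `B`: one of the two
cores, or the `r`-th free component of the neck `k`. -/
def RB.comp (x : Mk) : Bool ⊕ (Fin 3 × ℕ) :=
  match T.pl x with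
  | inr b => inl b
  | inl k => if T.cnt k (T.rk x) = 0 then inl false else
      if T.cnt k (T.rk x) = (T.B k).card then inl true else inr (k, T.cnt k (T.rk x))

/-- Good: nine gaps, no two marks of the same type in one component, and at least two marks in each
free component. -/
def RB.Good : Prop :=
  ∑ k, (T.B k).card = 9 ∧ (∀ x y, x.2 = y.2 → T.comp x = T.comp y → x = y) ∧
  ∀ k r, 1 ≤ r → r < (T.B k).card → ∃ x y, x ≠ y ∧ T.comp x = inr (k, r) ∧ T.comp y = inr (k, r)

variable {T}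

theorem RB.comp_core {x : Mk} {b : Bool} (h : T.pl x = inr b) : T.comp x = inl b := by
  unfold RB.comp; rw [h]

theorem RB.comp_neck {x : Mk} {k : Fin 3} (h : T.pl x = inl k) : T.comp x =
    if T.cnt k (T.rk x) = 0 then inl false else
      if T.cnt k (T.rk x) = (T.B k).card then inl true else inr (k, T.cnt k (T.rk x)) := by
  unfold RB.comp; rw [h]

theorem RB.comp_eq_inr {x : Mk} {k : Fin 3} {r : ℕ} : T.comp x = inr (k, r) ↔
    T.pl x = inl k ∧ T.cnt k (T.rk x) = r ∧ 1 ≤ r ∧ r ≠ (T.B k).card := by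
  constructor
  · intro h
    rcases hx : T.pl x with k' | b
    · rw [RB.comp_neck hx] at h
      split_ifs at h with h1 h2
      simp only [Sum.inr.injEq, Prod.mk.injEq] at h
      obtain ⟨rfl, rfl⟩ := h
      exact ⟨rfl, rfl, by omega, h2⟩
    · rw [RB.comp_core hx] at h
      cases h
  · rintro ⟨h1, h2, h3, h4⟩
    rw [RB.comp_neck h1, h2, if_neg (by omega), if_neg h4]

theorem RB.cnt_mono {k : Fin 3} {i j : ℕ} (h : i ≤ j) : T.cnt k i ≤ T.cnt k j :=
  Finset.card_le_card fun b hb => by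
    rw [Finset.mem_filter] at hb ⊢
    exact ⟨hb.1, hb.2.trans h⟩

theorem RB.cnt_lt {k : Fin 3} {i j b : ℕ} (hb : b ∈ T.B k) (h1 : i < b) (h2 : b ≤ j) :
    T.cnt k i < T.cnt k j := by
  refine Finset.card_lt_card ⟨fun c hc => ?_, fun h => ?_⟩
  · rw [Finset.mem_filter] at hc ⊢
    exact ⟨hc.1, by omega⟩
  · have := h (Finset.mem_filter.2 ⟨hb, h2⟩)
    rw [Finset.mem_filter] at this
    omega

theorem RB.cnt_eq {k : Fin 3} {i j : ℕ} (h : i ≤ j) (h' : ∀ b ∈ T.B k, b ≤ i ∨ j < b) :
    T.cnt k i = T.cnt k j := by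
  unfold RB.cnt
  congr 1
  ext b
  rw [Finset.mem_filter, Finset.mem_filter]
  constructor
  · rintro ⟨h1, h2⟩; exact ⟨h1, by omega⟩
  · rintro ⟨h1, h2⟩
    rcases h' b h1 with h3 | h3
    · exact ⟨h1, h3⟩
    · omega

theorem RB.cnt_pos {k : Fin 3} {i b : ℕ} (hb : b ∈ T.B k) (h : b ≤ i) : 1 ≤ T.cnt k i :=
  Finset.card_pos.2 ⟨b, Finset.mem_filter.2 ⟨hb, h⟩⟩

theorem RB.cnt_lt_card {k : Fin 3} {i b : ℕ} (hb : b ∈ T.B k) (h : i < b) :
    T.cnt k i < (T.B k).card := by
  refine Finset.card_lt_card ⟨Finset.filter_subset _ _, fun h' => ?_⟩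
  have := (Finset.mem_filter.1 (h' hb)).2
  omega

/-- In a good region the gaps of a neck have distance 2. -/
theorem RB.Good.step (hT : T.Good) {k : Fin 3} {b c : ℕ} (hb : b ∈ T.B k) (hc : c ∈ T.B k)
    (hbc : b < c) : b + 1 ∉ T.B k ∧ b + 2 ∈ T.B k := by
  obtain ⟨-, hty, hfree⟩ := hT
  -- the next gap
  obtain ⟨d, hd, hmin⟩ : ∃ d ∈ (T.B k).filter (b < ·), ∀ d' ∈ (T.B k).filter (b < ·), d ≤ d' :=
    Finset.exists_min_image _ id ⟨c, Finset.mem_filter.2 ⟨hc, hbc⟩⟩
  rw [Finset.mem_filter] at hd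
  have hnext : ∀ b' ∈ T.B k, b' ≤ b ∨ d ≤ b' := fun b' hb' => by
    by_cases h : b < b'
    · exact Or.inr (hmin b' (Finset.mem_filter.2 ⟨hb', h⟩))
    · exact Or.inl (not_lt.1 h)
  have hr1 : 1 ≤ T.cnt k b := RB.cnt_pos hb le_rfl
  have hr2 : T.cnt k b < (T.B k).card := RB.cnt_lt_card hc hbc
  -- the marks of the component
  have hin : ∀ x, T.comp x = inr (k, T.cnt k b) → T.pl x = inl k ∧ b ≤ T.rk x ∧ T.rk x < d := by
    intro x hx
    obtain ⟨h1, h2, -, -⟩ := RB.comp_eq_inr.1 hx
    refine ⟨h1, ?_, ?_⟩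
    · by_contra h
      have := RB.cnt_lt (T := T) hb (not_le.1 h) le_rfl
      omega
    · by_contra h
      have := RB.cnt_lt (T := T) hd.1 hd.2 (not_lt.1 h)
      omega
  have hout : ∀ i, b ≤ i → i < d → ∃ x, T.comp x = inr (k, T.cnt k b) ∧ T.pl x = inl k ∧
      T.rk x = i := by
    intro i h1 h2
    have h3 : d ≤ T.n k := T.sub k d hd.1
    obtain ⟨x, hx, hi⟩ := T.toReg.exists_rk (k := k) (i := i) (by omega)
    refine ⟨x, RB.comp_eq_inr.2 ⟨hx, ?_, hr1, by omega⟩, hx, hi⟩
    rw [hi]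
    refine (RB.cnt_eq h1 fun b' hb' => ?_).symm
    rcases hnext b' hb' with h | h
    · exact Or.inl h
    · exact Or.inr (by omega)
  have hge : b + 2 ≤ d := by
    obtain ⟨x, y, hxy, hx, hy⟩ := hfree k _ hr1 hr2
    obtain ⟨x1, x2, x3⟩ := hin x hx
    obtain ⟨y1, y2, y3⟩ := hin y hy
    by_contra h
    exact hxy (T.inj x y k x1 y1 (by omega))
  have hle : d ≤ b + 2 := by
    by_contra h
    obtain ⟨x, x1, -, x3⟩ := hout b le_rfl (by omega)
    obtain ⟨y, y1, -, y3⟩ := hout (b + 1) (by omega) (by omega)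
    obtain ⟨z, z1, -, z3⟩ := hout (b + 2) (by omega) (by omega)
    have hxy : x.2 ≠ y.2 := fun h' => by
      have := hty x y h' (x1.trans y1.symm)
      rw [this] at x3; omega
    have hxz : x.2 ≠ z.2 := fun h' => by
      have := hty x z h' (x1.trans z1.symm)
      rw [this] at x3; omega
    have hyz : y.2 ≠ z.2 := fun h' => by
      have := hty y z h' (y1.trans z1.symm)
      rw [this] at y3; omega
    revert hxy hxz hyz
    cases x.2 <;> cases y.2 <;> cases z.2 <;> simp
  have hd2 : d = b + 2 := le_antisymm hle hge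
  refine ⟨fun h => ?_, hd2 ▸ hd.1⟩
  rcases hnext _ h with h' | h' <;> omega

/-- A finite set of natural numbers with steps 2. -/
theorem steps_two (m : ℕ) : ∀ B : Finset ℕ, B.card = m + 1 →
    (∀ b ∈ B, ∀ c ∈ B, b < c → b + 1 ∉ B ∧ b + 2 ∈ B) →
    ∃ a, B = (range (m + 1)).image fun r => a + 2 * r := by
  induction m with
  | zero =>
    intro B hB _
    obtain ⟨a, ha⟩ := Finset.card_eq_one.1 hB
    exact ⟨a, by rw [ha]; simp⟩
  | succ m ih =>
    intro B hB hs
    obtain ⟨a, ha, hmin⟩ := Finset.exists_min_image B id (Finset.card_pos.1 (by omega))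
    obtain ⟨a', ha'⟩ := ih (B.erase a) (by rw [Finset.card_erase_of_mem ha, hB]; rfl) (by
      intro b hb c hc hbc
      rw [Finset.mem_erase] at hb hc
      obtain ⟨h1, h2⟩ := hs b hb.2 c hc.2 hbc
      refine ⟨fun h => h1 (Finset.mem_of_mem_erase h), Finset.mem_erase.2 ⟨?_, h2⟩⟩
      have : a ≤ b := hmin b hb.2
      omega)
    have h0 : a' ∈ B.erase a := by
      rw [ha']; exact Finset.mem_image.2 ⟨0, by simp, by simp⟩
    rw [Finset.mem_erase] at h0
    have h1 : a < a' := lt_of_le_of_ne (hmin a' h0.2) (Ne.symm h0.1)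
    obtain ⟨h2, h3⟩ := hs a ha a' h0.2 h1
    have h4 : a + 2 ∈ B.erase a := Finset.mem_erase.2 ⟨by omega, h3⟩
    have h5 : a' = a + 2 := by
      rw [ha'] at h4
      obtain ⟨r, -, hr⟩ := Finset.mem_image.1 h4
      have : a' ≠ a + 1 := fun h => h2 (h ▸ h0.2)
      omega
    refine ⟨a, ?_⟩
    rw [← Finset.insert_erase ha, ha', h5]
    ext x
    simp only [Finset.mem_insert, Finset.mem_image, Finset.mem_range]
    constructor
    · rintro (rfl | ⟨r, hr, rfl⟩)
      · exact ⟨0, by omega, by omega⟩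
      · exact ⟨r + 1, by omega, by omega⟩
    · rintro ⟨r, hr, rfl⟩
      rcases r with _ | r
      · exact Or.inl (by omega)
      · exact Or.inr ⟨r, by omega, by omega⟩

/-- The gaps of a good region. -/
theorem RB.Good.exists_a (hT : T.Good) (k : Fin 3) :
    ∃ a, T.B k = (range (T.B k).card).image fun r => a + 2 * r := by
  have h : 1 ≤ (T.B k).card := Finset.card_pos.2 (T.ne k)
  obtain ⟨a, ha⟩ := steps_two ((T.B k).card - 1) (T.B k) (by omega) fun b hb c hc hbc =>
    hT.step hb hc hbc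
  refine ⟨a, ?_⟩
  rwa [Nat.sub_add_cancel h] at ha

end Vale.Agent.P273.H93
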