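import Vale.Agent.P273.H93.Dict

/-!
The dictionary for the explicit good regions.
-/

noncomputable section

namespace Vale.Agent.P273.H93

open Sum Finset H728 H95
open H573 hiding cmp

/-- The blocks of the directions: the free components and the cores. -/
def blkE {Q : RB} (h9 : ∑ k, (Q.B k).card = 9) : Fin 7 ≃ Option (Cl (rg Q) (gB Q)) :=
  finSuccEquivLast.trans (clE h9).optionCongr

section
variable {p q : ℕ} {e : Bool → Bool} {f : Fin 6 → Bool} {loc : Bool → Option (Fin 3)} {o : Bool}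
  (hp : p ≤ q) (hq : q ≤ 6) (σ : Bool → Equiv.Perm (Fin 7))

theorem enc_nine : ∑ k, ((enc f o hp hq σ e loc).B k).card = 9 := (enc_good hp hq σ).1

theorem lcl_enc (x : L) : lcl (enc_nine (f := f) (o := o) (e := e) (loc := loc) hp hq σ) x =
    blkE (enc_nine hp hq σ) (σ x.2 x.1) := by
  rw [lcl_eq, RB.enc_loc]
  rfl

theorem crd_enc (k : Fin 3) : crd (rg (enc f o hp hq σ e loc)) (gB (enc f o hp hq σ e loc)) k =
    len p q k + 1 := by
  rw [crd_gB, enc_B_card]

theorem cmp_enc_core {x : L} (hx : ¬ (σ x.2 x.1).1 < 6) :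
    H573.cmp (rg (enc f o hp hq σ e loc)) (gB (enc f o hp hq σ e loc)) x = inl (e x.2) := by
  rw [cmp_gB]
  exact enc_comp_six hp hq σ hx

theorem cmp_enc_none {x : L}
    (hx : lcl (enc_nine (f := f) (o := o) (e := e) (loc := loc) hp hq σ) x = none) :
    H573.cmp (rg (enc f o hp hq σ e loc)) (gB (enc f o hp hq σ e loc)) x = inl (e x.2) := by
  refine cmp_enc_core hp hq σ fun h => ?_
  obtain ⟨z, hz⟩ := (lcl_none _).1 hx
  rw [cmp_gB, enc_comp_lt hp hq σ h] at hz
  cases hz

/-- The neck of a block. -/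
theorem blkE_fst (c : Fin 6) {d : Cl (rg (enc f o hp hq σ e loc)) (gB (enc f o hp hq σ e loc))}
    (h : blkE (enc_nine hp hq σ) c.castSucc = some d) : d.1.1 = ch p q c := by
  have h1 : blkE (enc_nine (f := f) (o := o) (e := e) (loc := loc) hp hq σ) c.castSucc =
      some (clE (enc_nine hp hq σ) c) := by
    unfold blkE
    rw [Equiv.trans_apply, finSuccEquivLast_castSucc]
    rfl
  rw [h1] at h
  obtain rfl := Option.some.inj h
  rw [clE_fst, RB.enc_kp]

theorem blkE_castSucc {Q : RB} (h9 : ∑ k, (Q.B k).card = 9) (c : Fin 6) :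
    blkE h9 c.castSucc = some (clE h9 c) := by
  unfold blkE
  rw [Equiv.trans_apply, finSuccEquivLast_castSucc]
  rfl

theorem blkE_last {Q : RB} (h9 : ∑ k, (Q.B k).card = 9) : blkE h9 (Fin.last 6) = none := by
  unfold blkE
  rw [Equiv.trans_apply, finSuccEquivLast_last]
  rfl

end

end Vale.Agent.P273.H93

end
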