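import Vale.Agent.P273.H93.Dict

/-!
The coefficient of a piece is zero if the region with gaps is not good.
-/

noncomputable section

namespace Vale.Agent.P273.H93

open Sum Finset H728 H573 H95 H254

theorem grT_apply (n : ℕ) (T : MT) (v : Fin 14 → H4) : grT n T v =
    ∑ τ ∈ (Finset.univ : Finset (Finset (Fin 14))).filter (fun τ => τ.card = n),
      T fun j => (if j ∈ τ then pA else pM) (v j) := by
  unfold grT
  rw [_root_.sum_apply]
  rfl

theorem grT_symAt (n : ℕ) {T : MT} {a b : Fin 14} (h : H973.SymAt T a b) :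
    H973.SymAt (grT n T) a b := by
  intro v
  rw [grT_apply, grT_apply]
  refine Finset.sum_equiv (Equiv.swap a b).finsetCongr (fun τ => ?_) fun τ _ => ?_
  · simp
  · rw [← h fun j => (if j ∈ (Equiv.swap a b).finsetCongr τ then pA else pM) (v j)]
    congr 1
    funext j
    have h1 : (Equiv.swap a b j ∈ (Equiv.swap a b).finsetCongr τ) ↔ j ∈ τ := by
      simp
    simp only [h1]

theorem grT_symT (n : ℕ) {T : MT} (h : H95.SymT T) : H95.SymT (grT n T) :=
  fun a b hab => grT_symAt n (h a b hab)

theorem symT_kd {T : MT} (hT : H95.SymT T) :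
    H254.SymT (kd (J := Fin 7)) (fun x : Bool × Fin 7 → H4 => T fun i => x (mrkE i)) where
  zero x j h := T.map_coord_zero (mrkE.symm j) (by simpa using h)
  symm x i j h := by
    have h1 := hT (mrkE.symm i) (mrkE.symm j) (by rw [mrk_symm, mrk_symm]; exact h)
      fun k => x (mrkE k)
    rw [← h1]
    congr 1
    funext k
    rw [mrkE.injective.map_swap, Equiv.apply_symm_apply, Equiv.apply_symm_apply]

/-- The numbering of the directions. -/
def halfE : Fin 14 ≃ Fin 7 × Bool where
  toFun i := (⟨i / 2, by omega⟩, decide ((i : ℕ) % 2 = 1))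
  invFun x := ⟨2 * x.1 + (if x.2 then 1 else 0), by split_ifs <;> omega⟩
  left_inv := by decide
  right_inv := by decide

variable {Q : RB}

theorem DTc_zero {T : MT} (hT : H95.SymT T) (n : ℕ) (h9 : ∑ k, (Q.B k).card = 9)
    (hQ : ¬ Q.Good) (y : Fin 3 → ℝ) (l : Bool → H4) :
    DTc (rg Q) T n (gB Q) y l = 0 := by
  unfold DTc
  split_ifs with h
  · by_contra hne
    obtain ⟨E, hE⟩ : ∃ E : Fin 7 ≃ Option (Cl (rg Q) (gB Q)),
        E = (Fintype.equivFinOfCardEq h).symm := ⟨_, rfl⟩
    rw [← hE] at hne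
    have he : (fun i : Fin 14 => (E ⟨i / 2, by omega⟩, decide ((i : ℕ) % 2 = 1))) =
        halfE.trans (Equiv.prodCongr E (Equiv.refl Bool)) := rfl
    rw [he, DT_reindex mrkE] at hne
    have hb := bijective_of_ne_zero (symT_kd (grT_symT n hT)) (by rw [h]; simp) none
      (θ := fun x => lgC (rg Q) (gB Q) y l (mrk (mrkE.symm x)))
      (loc := fun x => lcl h9 (x.2, x.1)) (fun j k b hk hj => ?_) (fun i j hij hl h0 => ?_)
      (mrkE.symm.trans (halfE.trans (Equiv.prodCongr E (Equiv.refl Bool)))) hne
    · exact hQ ((lcl_good h9).2 hb)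
    · obtain ⟨c, rfl⟩ := Option.ne_none_iff_exists'.1 hk
      rw [mrk_symm]
      unfold lgC
      exact if_neg fun h1 => hj ((lcl_some h9).2 h1)
    · obtain ⟨c, hc⟩ := Option.ne_none_iff_exists'.1 h0
      have h1 := (lcl_some h9).1 hc
      have h2 := (lcl_some h9).1 (hl.symm.trans hc)
      rw [mrk_symm, mrk_symm]
      funext d
      obtain ⟨d, b⟩ := d
      rcases d with _ | d
      · unfold lgC
        simp only [h1, h2]
      · unfold lgC
        simp only [h1, h2]
  · rfl

theorem valZero : ValZero := by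
  intro Q hQ h9 T hT
  constructor
  · intro i j
    unfold cofT
    rw [DTc_zero hT 6 h9 hQ, mul_zero]
  · intro i
    unfold cofA
    simp only [DTc_zero hT 7 h9 hQ, mul_zero, MeasureTheory.integral_zero]

end Vale.Agent.P273.H93

end
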