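import Vale.Agent.P273.H93.Last

/-!
The locations of the marks (free component, numbered by `Fin 6`, or core) of a region with nine
gaps, and the matrix of the change from the frame of the gaps to the frame of the clusters.
-/

namespace Vale.Agent.P273.H93

open Sum Finset H732

namespace RB

variable (T : RB)

/-- The first two partial sums of the numbers of free components. -/
def pT : ℕ := (T.B 0).card - 1
def qT : ℕ := (T.B 0).card - 1 + ((T.B 1).card - 1)

/-- The location of a mark: `none` = core, `some c` = the free component number `c`. -/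
def loc (x : Mk) : Option (Fin 6) :=
  match T.comp x with
  | inl _ => none
  | inr (k, r) => some (Fin.ofNat 6 (off T.pT T.qT k + r - 1))

/-- The neck of the free component number `c`. -/
def kp (c : Fin 6) : Fin 3 := ch T.pT T.qT c

/-- Its place in the neck. -/
def rp (c : Fin 6) : ℕ := c.1 - off T.pT T.qT (T.kp c) + 1

variable {T}

theorem nine (h9 : ∑ k, (T.B k).card = 9) :
    T.pT ≤ T.qT ∧ T.qT ≤ 6 ∧ ∀ k, (T.B k).card = len T.pT T.qT k + 1 := by
  rw [Fin.sum_univ_three] at h9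
  have h0 : ∀ k, 1 ≤ (T.B k).card := fun k => Finset.card_pos.2 (T.ne k)
  have h1 := h0 0
  have h2 := h0 1
  have h3 := h0 2
  refine ⟨?_, ?_, fun k => ?_⟩
  · unfold pT qT; omega
  · unfold qT; omega
  · fin_cases k
    · simp [len, pT]; omega
    · simp [len, pT, qT]; omega
    · simp [len, qT]; omega

theorem loc_none {x : Mk} : T.loc x = none ↔ ∃ z, T.comp x = inl z := by
  unfold loc
  rcases h : T.comp x with z | ⟨k, r⟩
  · simp
  · simp

theorem rp_pos (c : Fin 6) : 1 ≤ T.rp c := by unfold rp; omega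

theorem rp_lt (h9 : ∑ k, (T.B k).card = 9) (c : Fin 6) : T.rp c < (T.B (T.kp c)).card := by
  obtain ⟨hp, hq, hB⟩ := nine h9
  have h1 := off_le hp hq c.2
  rw [hB]
  unfold rp kp
  omega

theorem loc_some (h9 : ∑ k, (T.B k).card = 9) {x : Mk} {c : Fin 6} :
    T.loc x = some c ↔ T.comp x = inr (T.kp c, T.rp c) := by
  obtain ⟨hp, hq, hB⟩ := nine h9
  unfold loc
  rcases h : T.comp x with z | ⟨k, r⟩
  · simp
  · obtain ⟨-, h3, h4, h5⟩ := RB.comp_eq_inr.1 h
    have h6 : r ≤ (T.B k).card := h3 ▸ Finset.card_le_card (Finset.filter_subset _ _)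
    rw [hB] at h5 h6
    have h7 := off_add_len hp hq k
    have ht : off T.pT T.qT k + r - 1 < 6 := by omega
    have hk : ch T.pT T.qT (off T.pT T.qT k + r - 1) = k :=
      (ch_iff hp hq ht k).2 ⟨by omega, by omega⟩
    simp only [Option.some.injEq, Sum.inr.injEq, Prod.mk.injEq]
    constructor
    · intro hc
      have h8 : c.1 = off T.pT T.qT k + r - 1 := by
        rw [← hc]
        simp only [Fin.ofNat_eq_cast, Fin.val_natCast]
        omega
      have h9 : T.kp c = k := by unfold kp; rw [h8, hk]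
      refine ⟨h9.symm, ?_⟩
      unfold rp
      rw [h9, h8]
      omega
    · rintro ⟨h8, h9⟩
      apply Fin.ext
      simp only [Fin.ofNat_eq_cast, Fin.val_natCast]
      have h10 := off_le hp hq c.2
      unfold rp at h9
      rw [← h8] at h9
      have h11 : ch T.pT T.qT c = k := h8.symm
      rw [h11] at h10
      omega

/-- A good region has exactly one mark of each type at each location. -/
theorem good_iff (h9 : ∑ k, (T.B k).card = 9) :
    T.Good ↔ ∀ b, Function.Bijective fun i => T.loc (i, b) := by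
  obtain ⟨hp, hq, hB⟩ := nine h9
  constructor
  · intro hT b
    obtain ⟨σ, e, h1, h2⟩ := dec_pos hT hp hq hB
    have h3 : ∀ i, T.loc (i, b) = finSuccEquivLast (σ b i) := by
      intro i
      by_cases hi : (σ b i).1 < 6
      · have h4 : σ b i = (⟨_, hi⟩ : Fin 6).castSucc := rfl
        rw [h4, finSuccEquivLast_castSucc]
        refine (loc_some h9).2 ?_
        exact h1 (i, b) hi
      · have h4 : σ b i = Fin.last 6 := Fin.ext (by simp; omega)
        rw [h4, finSuccEquivLast_last]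
        exact loc_none.2 ⟨_, h2 (i, b) hi⟩
    have h5 : (fun i => T.loc (i, b)) = (σ b).trans finSuccEquivLast := funext h3
    rw [h5]
    exact Equiv.bijective _
  · intro hb
    refine ⟨h9, fun x y hxy h => ?_, fun k r h1 h2 => ?_⟩
    · have h3 : T.loc x = T.loc y := by unfold loc; rw [h]
      obtain ⟨i, b⟩ := x
      obtain ⟨j, b'⟩ := y
      simp only at hxy
      subst hxy
      rw [(hb b).1 h3]
    · rw [hB] at h2
      have h3 := off_add_len hp hq k
      have ht : off T.pT T.qT k + r - 1 < 6 := by omega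
      have hk : ch T.pT T.qT (off T.pT T.qT k + r - 1) = k :=
        (ch_iff hp hq ht k).2 ⟨by omega, by omega⟩
      have h4 : ∀ b, ∃ i, T.comp (i, b) = inr (k, r) := by
        intro b
        obtain ⟨i, hi⟩ := (hb b).2 (some ⟨_, ht⟩)
        refine ⟨i, ?_⟩
        have h5 := (loc_some h9).1 hi
        rw [h5]
        have h6 : T.kp ⟨_, ht⟩ = k := hk
        unfold rp
        rw [h6]
        congr 2
        simp only
        omega
      obtain ⟨i, hi⟩ := h4 true
      obtain ⟨j, hj⟩ := h4 false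
      exact ⟨_, _, by simp, hi, hj⟩

theorem enc_pT {p q : ℕ} (hp : p ≤ q) (hq : q ≤ 6) {f : Fin 6 → Bool} {o : Bool}
    (σ : Bool → Equiv.Perm (Fin 7)) {e : Bool → Bool} {loc : Bool → Option (Fin 3)} :
    (enc f o hp hq σ e loc).pT = p ∧ (enc f o hp hq σ e loc).qT = q := by
  unfold pT qT
  rw [enc_B_card, enc_B_card]
  simp only [len, Matrix.cons_val_zero, Matrix.cons_val_one]
  omega

theorem enc_loc {p q : ℕ} (hp : p ≤ q) (hq : q ≤ 6) {f : Fin 6 → Bool} {o : Bool}
    (σ : Bool → Equiv.Perm (Fin 7)) {e : Bool → Bool} {loc : Bool → Option (Fin 3)} (x : Mk) :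
    (enc f o hp hq σ e loc).loc x = finSuccEquivLast (σ x.2 x.1) := by
  by_cases hi : (σ x.2 x.1).1 < 6
  · have h4 : σ x.2 x.1 = (⟨_, hi⟩ : Fin 6).castSucc := rfl
    rw [h4, finSuccEquivLast_castSucc]
    refine (loc_some (enc_good hp hq σ).1).2 ?_
    rw [enc_comp_lt hp hq σ hi]
    unfold rp kp
    rw [(enc_pT hp hq σ).1, (enc_pT hp hq σ).2]
  · have h4 : σ x.2 x.1 = Fin.last 6 := Fin.ext (by simp; omega)
    rw [h4, finSuccEquivLast_last]
    exact loc_none.2 ⟨_, enc_comp_six hp hq σ hi⟩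

theorem enc_kp {p q : ℕ} (hp : p ≤ q) (hq : q ≤ 6) {f : Fin 6 → Bool} {o : Bool}
    (σ : Bool → Equiv.Perm (Fin 7)) {e : Bool → Bool} {loc : Bool → Option (Fin 3)} (c : Fin 6) :
    (enc f o hp hq σ e loc).kp c = ch p q c := by
  unfold kp
  rw [(enc_pT hp hq σ).1, (enc_pT hp hq σ).2]

theorem card_kp (h9 : ∑ k, (T.B k).card = 9) (k : Fin 3) :
    (univ.filter fun c => T.kp c = k).card = (T.B k).card - 1 := by
  obtain ⟨hp, hq, hB⟩ := nine h9
  rw [hB, Finset.card_filter]
  exact (sum_ch ⟨T.pT, by omega⟩ ⟨T.qT, by omega⟩ hp k)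

/-! ### The frames -/

variable (T) in
/-- The number of gaps of `B` before the gap `g`. -/
def ix (k : Fin 3) (g : ℕ) : ℕ := ((T.B k).filter (· < g)).card

theorem ix_lt_cnt {k : Fin 3} {g i : ℕ} (hg : g ∈ T.B k) : T.ix k g < T.cnt k i ↔ g ≤ i := by
  constructor
  · intro h
    by_contra h1
    have h2 : T.cnt k i ≤ T.ix k g := Finset.card_le_card fun b hb => by
      rw [Finset.mem_filter] at hb ⊢
      exact ⟨hb.1, by omega⟩
    omega
  · intro h
    refine Finset.card_lt_card ⟨fun b hb => ?_, fun h1 => ?_⟩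
    · rw [Finset.mem_filter] at hb ⊢
      exact ⟨hb.1, by omega⟩
    · have h2 := (Finset.mem_filter.1 (h1 (Finset.mem_filter.2 ⟨hg, h⟩))).2
      omega

theorem ix_lt {k : Fin 3} {g : ℕ} (hg : g ∈ T.B k) : T.ix k g < (T.B k).card :=
  Finset.card_lt_card ⟨Finset.filter_subset _ _, fun h => by
    have := (Finset.mem_filter.1 (h hg)).2
    omega⟩

theorem ix_injOn (k : Fin 3) : Set.InjOn (T.ix k) (T.B k) := by
  have h : ∀ a ∈ T.B k, ∀ b, a < b → T.ix k a < T.ix k b := fun a ha b hab =>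
    Finset.card_lt_card ⟨fun c hc => by
      rw [Finset.mem_filter] at hc ⊢
      exact ⟨hc.1, by omega⟩, fun h1 => by
      have := (Finset.mem_filter.1 (h1 (Finset.mem_filter.2 ⟨ha, hab⟩))).2
      omega⟩
  intro a ha b hb hab
  rcases lt_trichotomy a b with h1 | h1 | h1
  · exact absurd hab (h a ha b h1).ne
  · exact h1
  · exact absurd hab (h b hb a h1).ne'

theorem ix_image (k : Fin 3) : (T.B k).image (T.ix k) = range (T.B k).card := by
  refine Finset.eq_of_subset_of_card_le (fun i hi => ?_) ?_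
  · obtain ⟨g, hg, rfl⟩ := Finset.mem_image.1 hi
    exact Finset.mem_range.2 (ix_lt hg)
  · rw [Finset.card_range, Finset.card_image_of_injOn (ix_injOn k)]

theorem sum_ix {M : Type*} [AddCommMonoid M] (k : Fin 3) (φ : ℕ → M) :
    ∑ g ∈ T.B k, φ (T.ix k g) = ∑ i ∈ range (T.B k).card, φ i := by
  rw [← ix_image, Finset.sum_image (ix_injOn k)]

variable {m : ∀ k, Fin (T.n k + 1)}

theorem sum_fr {M : Type*} [AddCommMonoid M] (φ : Fin 3 → ℕ → M) (h0 : ∀ k, φ k (m k) = 0) :
    ∑ f ∈ T.fr m, φ f.1.1 f.1.2 = ∑ k, ∑ g ∈ T.B k, φ k g := by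
  rw [Finset.sum_sigma']
  refine Finset.sum_of_injOn (fun f => (⟨f.1.1, f.1.2.1⟩ : Σ _ : Fin 3, ℕ)) ?_ ?_ ?_ ?_
  · rintro ⟨⟨k, i⟩, hf⟩ - ⟨⟨k', i'⟩, hf'⟩ - h
    simp only at h
    obtain ⟨rfl, h2⟩ := Sigma.mk.inj h
    obtain rfl : i = i' := Fin.ext (eq_of_heq h2)
    rfl
  · intro f hf
    exact Finset.mem_coe.2 (Finset.mem_sigma.2 ⟨Finset.mem_univ _, mem_frS.1 (Finset.mem_coe.1 hf)⟩)
  · rintro ⟨k, g⟩ hg hn
    have hg' : g ∈ T.B k := (Finset.mem_sigma.1 hg).2
    by_cases h : g = (m k).1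
    · rw [h]; exact h0 k
    · refine absurd ?_ hn
      have hi' : g < T.n k + 1 := Nat.lt_succ_iff.2 (T.sub k g hg')
      refine ⟨⟨⟨k, ⟨g, hi'⟩⟩, fun h' => h ?_⟩, Finset.mem_coe.2 (mem_frS.2 hg'), rfl⟩
      exact congrArg Fin.val (eq_of_heq (Sigma.mk.inj h').2)
  · intro f _
    rfl

theorem card_fr (hm : ∀ k, (m k).1 ∈ T.B k) :
    (T.fr m).card = ∑ k, ((T.B k).card - 1) := by
  have h1 := sum_fr (T := T) (m := m) (fun k g => if g = (m k).1 then 0 else 1) (fun k => if_pos rfl)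
  have h2 : ∑ f ∈ T.fr m, (if (f.1.2 : ℕ) = (m f.1.1).1 then 0 else 1) = (T.fr m).card := by
    rw [Finset.card_eq_sum_ones]
    refine Finset.sum_congr rfl fun f _ => if_neg fun h => ?_
    exact f.2 (Sigma.ext rfl (heq_of_eq (Fin.ext h)))
  rw [← h2, h1]
  refine Finset.sum_congr rfl fun k _ => ?_
  have h3 : ∑ g ∈ T.B k, (if g = (m k).1 then 0 else 1) = ∑ g ∈ (T.B k).erase (m k).1, 1 := by
    rw [← Finset.insert_erase (hm k), Finset.sum_insert (Finset.notMem_erase _ _), if_pos rfl,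
      zero_add, Finset.insert_erase (hm k)]
    exact Finset.sum_congr rfl fun g hg => if_neg (Finset.ne_of_mem_erase hg)
  rw [h3, Finset.sum_const, smul_eq_mul, mul_one, Finset.card_erase_of_mem (hm k)]

theorem card_fr_six (h9 : ∑ k, (T.B k).card = 9) (hm : ∀ k, (m k).1 ∈ T.B k) :
    (T.fr m).card = 6 := by
  obtain ⟨hp, hq, hB⟩ := nine h9
  rw [card_fr hm, Fin.sum_univ_three, hB, hB, hB]
  simp only [len, Matrix.cons_val_zero, Matrix.cons_val_one, Matrix.cons_val]
  omega

/-- A numbering of the free gaps. -/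
noncomputable def nu (h9 : ∑ k, (T.B k).card = 9) (hm : ∀ k, (m k).1 ∈ T.B k) :
    Fin 6 ≃ {f // f ∈ T.fr m} :=
  (Finset.equivFinOfCardEq (card_fr_six h9 hm)).symm

variable (T m) in
/-- The coordinates of the gap vector `f` in the frame of the clusters: `+1` for the clusters
between `f` and the eliminated gap if `f` is before it, `-1` otherwise. -/
def am (f : (wreg T.n m).Fr) (c : Fin 6) : ℤ :=
  if f.1.1 = T.kp c then (if T.ix f.1.1 f.1.2 < T.rp c then 1 else 0) -
    (if T.ix f.1.1 (m f.1.1) < T.rp c then 1 else 0) else 0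

variable (T m) in
/-- The inverse matrix. -/
def am' (c : Fin 6) (f : (wreg T.n m).Fr) : ℤ :=
  if f.1.1 = T.kp c then (if T.ix f.1.1 f.1.2 = T.rp c - 1 then 1 else 0) -
    (if T.ix f.1.1 f.1.2 = T.rp c then 1 else 0) else 0

theorem eq_of_kp_rp (h9 : ∑ k, (T.B k).card = 9) {c c' : Fin 6} (h : T.kp c = T.kp c')
    (h' : T.rp c = T.rp c') : c = c' := by
  obtain ⟨hp, hq, -⟩ := nine h9
  exact Fin.ext (pos_eq hp hq c.2 c'.2 h h')

theorem sum_am (h9 : ∑ k, (T.B k).card = 9) (c c' : Fin 6) :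
    ∑ f ∈ T.fr m, T.am' m c f * T.am m f c' = if c = c' then 1 else 0 := by
  have h1 := sum_fr (T := T) (m := m) (fun k g =>
    (if k = T.kp c then ((if T.ix k g = T.rp c - 1 then (1 : ℤ) else 0) -
      (if T.ix k g = T.rp c then 1 else 0)) else 0) *
    (if k = T.kp c' then ((if T.ix k g < T.rp c' then 1 else 0) -
      (if T.ix k (m k) < T.rp c' then 1 else 0)) else 0)) (fun k => by
        split_ifs <;> simp)
  have h2 : ∑ f ∈ T.fr m, T.am' m c f * T.am m f c' = _ := h1
  rw [h2, Finset.sum_eq_single (T.kp c)]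
  · by_cases h : T.kp c = T.kp c'
    · simp only [if_pos h, if_true]
      rw [sum_ix (T := T) (T.kp c) (fun i => ((if i = T.rp c - 1 then (1 : ℤ) else 0) -
        (if i = T.rp c then 1 else 0)) * ((if i < T.rp c' then 1 else 0) -
        (if T.ix (T.kp c) (m (T.kp c)) < T.rp c' then 1 else 0)))]
      simp only [sub_mul, Finset.sum_sub_distrib, ite_mul, one_mul, zero_mul,
        Finset.sum_ite_eq', Finset.mem_range]
      have h3 := rp_lt h9 c
      have h4 := T.rp_pos c
      have h5 := T.rp_pos c'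
      rw [if_pos (by omega), if_pos h3]
      by_cases hc : c = c'
      · subst hc
        rw [if_pos rfl, if_pos (by omega : T.rp c - 1 < T.rp c), if_neg (lt_irrefl _)]
        ring
      · have h6 : T.rp c ≠ T.rp c' := fun h6 => hc (eq_of_kp_rp h9 h h6)
        rw [if_neg hc]
        by_cases h7 : T.rp c < T.rp c'
        · rw [if_pos (by omega : T.rp c - 1 < T.rp c'), if_pos h7]
          ring
        · rw [if_neg (by omega : ¬ T.rp c - 1 < T.rp c'), if_neg h7]
          ring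
    · simp only [if_neg h, mul_zero, Finset.sum_const_zero]
      rw [if_neg (fun hc => h (by rw [hc]))]
  · intro k _ hk
    exact Finset.sum_eq_zero fun g _ => by rw [if_neg hk, zero_mul]
  · intro h
    exact absurd (Finset.mem_univ _) h

theorem det_am_sq (h9 : ∑ k, (T.B k).card = 9) (ν : Fin 6 ≃ {f // f ∈ T.fr m}) :
    (Matrix.of fun i c => ((T.am m (ν i) c : ℤ) : ℝ)).det ^ 2 = 1 := by
  let M : Matrix (Fin 6) (Fin 6) ℤ := fun i c => T.am m (ν i).1 c
  let M' : Matrix (Fin 6) (Fin 6) ℤ := fun c i => T.am' m c (ν i).1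
  have h1 : M' * M = 1 := by
    ext c c'
    rw [Matrix.mul_apply, Matrix.one_apply, ← sum_am (m := m) h9 c c', ← Finset.sum_coe_sort
      (T.fr m)]
    exact Equiv.sum_comp ν fun f => T.am' m c f.1 * T.am m f.1 c'
  have h2 := congrArg Matrix.det h1
  rw [Matrix.det_mul, Matrix.det_one] at h2
  have h3 : (Matrix.of fun i c => ((T.am m (ν i) c : ℤ) : ℝ)).det = ((M.det : ℤ) : ℝ) :=
    ((Int.castRingHom ℝ).map_det M).symm
  rw [h3]
  rcases Int.isUnit_iff.1 (IsUnit.of_mul_eq_one_right _ h2) with h | h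
  · rw [h]; norm_num
  · rw [h]; norm_num

/-- The gap vector `f` moves a mark by `am` at its location. -/
theorem am_loc (h9 : ∑ k, (T.B k).card = 9) (hm : ∀ k, (m k).1 ∈ T.B k)
    {f : (wreg T.n m).Fr} (hf : f ∈ T.fr m) {x : Mk} {k : Fin 3} (hx : T.pl x = inl k) :
    (if f.1.1 = k ∧ (f.1.2 : ℕ) ≤ T.rk x then (1 : ℤ) else 0) -
      (if f.1.1 = k ∧ (m f.1.1 : ℕ) ≤ T.rk x then 1 else 0) =
      (T.loc x).elim 0 fun c => T.am m f c := by
  have hf' : (f.1.2 : ℕ) ∈ T.B f.1.1 := mem_frS.1 hf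
  by_cases hk : f.1.1 = k
  · subst hk
    have e1 := ix_lt_cnt (T := T) (i := T.rk x) hf'
    have e2 := ix_lt_cnt (T := T) (i := T.rk x) (hm f.1.1)
    simp only [true_and, ← e1, ← e2]
    have h1 := ix_lt hf'
    have h2 := ix_lt (hm f.1.1)
    have h3 := RB.comp_neck hx
    by_cases h4 : T.cnt f.1.1 (T.rk x) = 0
    · rw [if_pos h4] at h3
      rw [loc_none.2 ⟨_, h3⟩, if_neg (by omega), if_neg (by omega)]
      rfl
    · rw [if_neg h4] at h3
      by_cases h5 : T.cnt f.1.1 (T.rk x) = (T.B f.1.1).card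
      · rw [if_pos h5] at h3
        rw [loc_none.2 ⟨_, h3⟩, if_pos (by omega), if_pos (by omega)]
        rfl
      · rw [if_neg h5] at h3
        rcases hl : T.loc x with _ | c
        · obtain ⟨z, hz⟩ := loc_none.1 hl
          rw [h3] at hz
          cases hz
        · have h6 := (loc_some h9).1 hl
          rw [h3] at h6
          simp only [Sum.inr.injEq, Prod.mk.injEq] at h6
          change _ = T.am m f c
          unfold am
          rw [if_pos h6.1, h6.2]
  · rw [if_neg (fun h => hk h.1), if_neg (fun h => hk h.1), sub_zero]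
    rcases hl : T.loc x with _ | c
    · rfl
    · have h6 := (loc_some h9).1 hl
      rw [RB.comp_neck hx] at h6
      split_ifs at h6
      simp only [Sum.inr.injEq, Prod.mk.injEq] at h6
      change _ = T.am m f c
      unfold am
      rw [if_neg (fun h => hk (h.trans h6.1.symm))]

/-! ### In the charts of helper732 -/

theorem mem_bef_iff {n : Fin 3 → ℕ} {k : Fin 3} {i : Fin (n k)} {g : Σ k, Fin (n k + 1)} :
    g ∈ wreg.bef n k i ↔ g.1 = k ∧ (g.2 : ℕ) ≤ i := by
  rw [wreg.mem_bef]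
  constructor
  · rintro ⟨j, h, rfl⟩
    exact ⟨rfl, by simpa [Fin.le_def] using h⟩
  · obtain ⟨k', j⟩ := g
    rintro ⟨h1, h2⟩
    simp only at h1 h2
    subst h1
    exact ⟨j, by simpa [Fin.le_def] using h2, rfl⟩

section
variable (C : Type) [Fintype C] [DecidableEq C]

theorem LX_u (h9 : ∑ k, (T.B k).card = 9) (hm : ∀ k, (m k).1 ∈ T.B k)
    {f : (wreg T.n m).Fr} (hf : f ∈ T.fr m) {x : Mk} {k : Fin 3} (hx : T.pl x = inl k)
    {i : Fin (T.n k)} (hi : (i : ℕ) = T.rk x) :
    wreg.LX C T.n m k i ((wreg T.n m).vec (.u f)) =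
      -(((T.loc x).elim 0 fun c => T.am m f c : ℤ) : ℂ) := by
  rw [← am_loc h9 hm hf hx, wreg.LX, Reg.lS_vec_u]
  have h1 : (wreg T.n m).last ((wreg T.n m).nk f.1) ∈ wreg.bef T.n k i ↔
      f.1.1 = k ∧ (m f.1.1 : ℕ) ≤ T.rk x := by rw [← hi]; exact mem_bef_iff
  have h2 : f.1 ∈ wreg.bef T.n k i ↔ f.1.1 = k ∧ (f.1.2 : ℕ) ≤ T.rk x := by
    rw [← hi]; exact mem_bef_iff
  simp only [h1, h2]
  push_cast
  ring

theorem LX_ph (h9 : ∑ k, (T.B k).card = 9) (hm : ∀ k, (m k).1 ∈ T.B k)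
    {f : (wreg T.n m).Fr} (hf : f ∈ T.fr m) {x : Mk} {k : Fin 3} (hx : T.pl x = inl k)
    {i : Fin (T.n k)} (hi : (i : ℕ) = T.rk x) :
    wreg.LX C T.n m k i ((wreg T.n m).vec (.ph f)) =
      (((T.loc x).elim 0 fun c => T.am m f c : ℤ) : ℂ) * Complex.I := by
  rw [← am_loc h9 hm hf hx, wreg.LX, Reg.lS_vec_ph]
  have h1 : (wreg T.n m).last ((wreg T.n m).nk f.1) ∈ wreg.bef T.n k i ↔
      f.1.1 = k ∧ (m f.1.1 : ℕ) ≤ T.rk x := by rw [← hi]; exact mem_bef_iff
  have h2 : f.1 ∈ wreg.bef T.n k i ↔ f.1.1 = k ∧ (f.1.2 : ℕ) ≤ T.rk x := by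
    rw [← hi]; exact mem_bef_iff
  simp only [h1, h2]
  push_cast
  ring

end

end RB

end Vale.Agent.P273.H93
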