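import Vale.Agent.P273.H573.Skel
import Vale.Agent.P273.H93.Loc

/-!
The dictionary between the region `rg Q` with the large gaps `gB Q` and the region with gaps `Q`.
-/

noncomputable section

namespace Vale.Agent.P273.H93

open Sum Finset H728 H95
open H573 hiding cmp

/-- The marks. -/
theorem mrk_bij : Function.Bijective mrk := by
  refine (Fintype.bijective_iff_injective_and_card _).2 ⟨?_, by simp⟩
  intro i j h
  unfold mrk at h
  split_ifs at h with h1 h2 h2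
  · simp only [Prod.mk.injEq, and_true] at h
    exact Fin.ext (Fin.mk.inj h)
  · simp at h
  · simp at h
  · simp only [Prod.mk.injEq, and_true] at h
    have := Fin.mk.inj h
    exact Fin.ext (by omega)

/-- The marks, type first. -/
def mrkE : Fin 14 ≃ Bool × Fin 7 := (Equiv.ofBijective mrk mrk_bij).trans (Equiv.prodComm _ _)

theorem mrkE_apply (i : Fin 14) : mrkE i = ((mrk i).2, (mrk i).1) := rfl

theorem mrk_symm (x : Bool × Fin 7) : mrk (mrkE.symm x) = (x.2, x.1) := by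
  have h := congrArg Prod.swap (mrkE.apply_symm_apply x)
  exact h

variable {Q : RB}

theorem card_gB (k : Fin 3) (P : ℕ → Prop) [DecidablePred P] :
    ((gB Q).filter fun g => g.1 = k ∧ P g.2).card = ((Q.B k).filter P).card := by
  refine Finset.card_bij (fun g _ => (g.2 : ℕ)) ?_ ?_ ?_
  · intro g hg
    rw [Finset.mem_filter] at hg
    obtain ⟨h1, rfl, h2⟩ := hg
    exact Finset.mem_filter.2 ⟨(Finset.mem_filter.1 h1).2, h2⟩
  · rintro ⟨k1, i⟩ h ⟨k2, j⟩ h' hij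
    obtain ⟨-, rfl, -⟩ := Finset.mem_filter.1 h
    obtain ⟨-, h2, -⟩ := Finset.mem_filter.1 h'
    simp only at h2
    subst h2
    obtain rfl : i = j := Fin.ext hij
    rfl
  · intro b hb
    rw [Finset.mem_filter] at hb
    have hi : b < (rg Q).n k + 1 := Nat.lt_succ_iff.2 (Q.sub k b hb.1)
    exact ⟨⟨k, ⟨b, hi⟩⟩, Finset.mem_filter.2 ⟨Finset.mem_filter.2 ⟨Finset.mem_univ _, hb.1⟩,
      rfl, hb.2⟩, rfl⟩

theorem cntG_gB (k : Fin 3) (i : ℕ) : cntG (rg Q) (gB Q) k i = Q.cnt k i :=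
  card_gB k fun j => j ≤ i

theorem crd_gB (k : Fin 3) : crd (rg Q) (gB Q) k = (Q.B k).card := by
  have h := card_gB (Q := Q) k fun _ => True
  simp only [and_true, Finset.filter_true] at h
  exact h

theorem cmp_gB (x : L) : H573.cmp (rg Q) (gB Q) x = Q.comp x := by
  unfold H573.cmp RB.comp
  have h : (rg Q).pl x = Q.pl x := rfl
  rw [h]
  rcases Q.pl x with k | b
  · simp only [cntG_gB, crd_gB]
    rfl
  · rfl

theorem crd_le (k : Fin 3) : crd (rg Q) (gB Q) k ≤ 15 := by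
  rw [crd_gB]
  have h : Q.B k ⊆ range 15 := fun i hi => Finset.mem_range.2 (Q.lt_of_mem hi)
  simpa using Finset.card_le_card h

theorem rp_lt_crd (h9 : ∑ k, (Q.B k).card = 9) (c : Fin 6) :
    Q.rp c < crd (rg Q) (gB Q) (Q.kp c) := by
  rw [crd_gB]
  exact RB.rp_lt h9 c

theorem rp_lt_16 (h9 : ∑ k, (Q.B k).card = 9) (c : Fin 6) : Q.rp c < 16 := by
  have h1 := rp_lt_crd h9 c
  have h2 := crd_le (Q := Q) (Q.kp c)
  omega

/-- The cluster number `c`. -/
def clS (h9 : ∑ k, (Q.B k).card = 9) (c : Fin 6) : Cl (rg Q) (gB Q) :=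
  ⟨(Q.kp c, ⟨Q.rp c, rp_lt_16 h9 c⟩), RB.rp_pos c, rp_lt_crd h9 c⟩

theorem clS_bij (h9 : ∑ k, (Q.B k).card = 9) : Function.Bijective (clS h9) := by
  constructor
  · intro c c' h
    have h1 := congrArg (fun x => x.1.1) h
    have h2 := congrArg (fun x => (x.1.2 : ℕ)) h
    exact RB.eq_of_kp_rp h9 h1 h2
  · rintro ⟨⟨k, r⟩, h1, h2⟩
    obtain ⟨hp, hq, hB⟩ := RB.nine h9
    simp only at h1 h2
    rw [crd_gB, hB] at h2
    have h3 := off_add_len hp hq k
    have ht : off Q.pT Q.qT k + (r : ℕ) - 1 < 6 := by omega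
    have hk : ch Q.pT Q.qT (off Q.pT Q.qT k + (r : ℕ) - 1) = k :=
      (ch_iff hp hq ht k).2 ⟨by omega, by omega⟩
    refine ⟨⟨_, ht⟩, Subtype.ext (Prod.ext hk (Fin.ext ?_))⟩
    change (off Q.pT Q.qT k + (r : ℕ) - 1) -
      off Q.pT Q.qT (ch Q.pT Q.qT (off Q.pT Q.qT k + (r : ℕ) - 1)) + 1 = r
    rw [hk]
    omega

/-- The clusters. -/
def clE (h9 : ∑ k, (Q.B k).card = 9) : Fin 6 ≃ Cl (rg Q) (gB Q) :=
  Equiv.ofBijective (clS h9) (clS_bij h9)

theorem clE_fst (h9 : ∑ k, (Q.B k).card = 9) (c : Fin 6) : (clE h9 c).1.1 = Q.kp c := rfl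

theorem clE_snd (h9 : ∑ k, (Q.B k).card = 9) (c : Fin 6) : ((clE h9 c).1.2 : ℕ) = Q.rp c := rfl

theorem card_cl (h9 : ∑ k, (Q.B k).card = 9) :
    Fintype.card (Option (Cl (rg Q) (gB Q))) = 7 := by
  rw [Fintype.card_option, ← Fintype.card_congr (clE h9), Fintype.card_fin]

/-- The location as a cluster. -/
def lcl (h9 : ∑ k, (Q.B k).card = 9) (x : L) : Option (Cl (rg Q) (gB Q)) :=
  (Q.loc x).map (clE h9)

theorem lcl_eq (h9 : ∑ k, (Q.B k).card = 9) (x : L) :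
    lcl h9 x = (Equiv.optionCongr (clE h9)) (Q.loc x) := rfl

theorem lcl_some (h9 : ∑ k, (Q.B k).card = 9) {x : L} {c : Cl (rg Q) (gB Q)} :
    lcl h9 x = some c ↔ H573.cmp (rg Q) (gB Q) x = inr (c.1.1, (c.1.2 : ℕ)) := by
  obtain ⟨c', rfl⟩ := (clE h9).surjective c
  rw [cmp_gB, clE_fst, clE_snd, ← RB.loc_some h9, lcl]
  rcases Q.loc x with _ | d
  · simp
  · simp

theorem lcl_none (h9 : ∑ k, (Q.B k).card = 9) {x : L} :
    lcl h9 x = none ↔ ∃ z, H573.cmp (rg Q) (gB Q) x = inl z := by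
  rw [cmp_gB, ← RB.loc_none, lcl]
  rcases Q.loc x with _ | d
  · simp
  · simp

theorem lcl_good (h9 : ∑ k, (Q.B k).card = 9) :
    Q.Good ↔ ∀ b, Function.Bijective fun i => lcl h9 (i, b) := by
  rw [RB.good_iff h9]
  refine forall_congr' fun b => ?_
  have h : (fun i => lcl h9 (i, b)) = (Equiv.optionCongr (clE h9)) ∘ fun i => Q.loc (i, b) := rfl
  rw [h, Equiv.comp_bijective]

end Vale.Agent.P273.H93

end
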