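import Vale.Agent.P273.H93.Dec
import Vale.Agent.P273.H732.Conv93
import Vale.Agent.P273.H732.Word

/-!
The sum over the regions, the eliminated gaps and the sets of free gaps, as a sum over `RB`.
-/

namespace Vale.Agent.P273.H93

open Sum Finset H732

/-- The free gaps in the sets `Bs k`. -/
def frS (n : Fin 3 → ℕ) (Bs : Fin 3 → Finset ℕ) (m : ∀ k, Fin (n k + 1)) :
    Finset (wreg n m).Fr :=
  univ.filter fun f => f.1.2.1 ∈ Bs f.1.1

theorem mem_frS {n : Fin 3 → ℕ} {Bs : Fin 3 → Finset ℕ} {m : ∀ k, Fin (n k + 1)}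
    {f : (wreg n m).Fr} : f ∈ frS n Bs m ↔ f.1.2.1 ∈ Bs f.1.1 := by
  unfold frS
  rw [Finset.mem_filter]
  exact ⟨fun h => h.2, fun h => ⟨Finset.mem_univ _, h⟩⟩

/-- A set of free gaps with the eliminated ones. -/
def gaps {n : Fin 3 → ℕ} (m : ∀ k, Fin (n k + 1)) (B : Finset (wreg n m).Fr) (k : Fin 3) :
    Finset ℕ :=
  insert (m k).1 ((B.filter fun f => f.1.1 = k).image fun f => f.1.2.1)

theorem mem_gaps {n : Fin 3 → ℕ} {m : ∀ k, Fin (n k + 1)} {B : Finset (wreg n m).Fr} {k : Fin 3}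
    {i : ℕ} : i ∈ gaps m B k ↔ i = (m k).1 ∨ ∃ f ∈ B, f.1.1 = k ∧ f.1.2.1 = i := by
  unfold gaps
  rw [Finset.mem_insert, Finset.mem_image]
  constructor
  · rintro (h | ⟨f, hf, h⟩)
    · exact Or.inl h
    · rw [Finset.mem_filter] at hf
      exact Or.inr ⟨f, hf.1, hf.2, h⟩
  · rintro (h | ⟨f, hf, h, h'⟩)
    · exact Or.inl h
    · exact Or.inr ⟨f, Finset.mem_filter.2 ⟨hf, h⟩, h'⟩

theorem frS_gaps {n : Fin 3 → ℕ} (m : ∀ k, Fin (n k + 1)) (B : Finset (wreg n m).Fr) :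
    frS n (gaps m B) m = B := by
  ext f
  rw [mem_frS, mem_gaps]
  constructor
  · rintro (h | ⟨g, hg, h1, h2⟩)
    · exact (f.2 (Sigma.ext rfl (heq_of_eq (Fin.ext h)))).elim
    · obtain ⟨⟨k, i⟩, hf⟩ := f
      obtain ⟨⟨k', i'⟩, hg'⟩ := g
      simp only at h1 h2
      subst h1
      obtain rfl : i' = i := Fin.ext h2
      exact hg
  · intro h
    exact Or.inr ⟨f, h, rfl, rfl⟩

theorem gaps_frS {n : Fin 3 → ℕ} (m : ∀ k, Fin (n k + 1)) {Bs : Fin 3 → Finset ℕ}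
    (hB : ∀ k, ∀ i ∈ Bs k, i ≤ n k) (hm : ∀ k, (m k).1 ∈ Bs k) : gaps m (frS n Bs m) = Bs := by
  funext k
  ext i
  rw [mem_gaps]
  constructor
  · rintro (rfl | ⟨f, hf, rfl, rfl⟩)
    · exact hm k
    · exact mem_frS.1 hf
  · intro hi
    by_cases h : i = (m k).1
    · exact Or.inl h
    · have hi' : i < n k + 1 := Nat.lt_succ_iff.2 (hB k i hi)
      refine Or.inr ⟨⟨⟨k, ⟨i, hi'⟩⟩, fun h' => h ?_⟩, mem_frS.2 hi, rfl, rfl⟩
      exact congrArg Fin.val (eq_of_heq (Sigma.mk.inj h').2)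

/-- The free gaps of `T`. -/
def RB.fr (T : RB) (m : ∀ k, Fin (T.n k + 1)) : Finset (wreg T.n m).Fr := frS T.n T.B m

/-- The index of the limit: region, eliminated gaps, free gaps. -/
abbrev J : Type := Σ R : Reg, Σ m : (∀ k, Fin (R.n k + 1)), Finset (wreg R.n m).Fr

/-- The same index, as a region with gaps and one gap chosen in each neck. -/
abbrev J' : Type := Σ T : RB, {m : ∀ k, Fin (T.n k + 1) // ∀ k, (m k).1 ∈ T.B k}

/-- The region with gaps of a region, the eliminated gaps and a set of free gaps. -/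
@[reducible] def mkRB (R : Reg) (m : ∀ k, Fin (R.n k + 1)) (B : Finset (wreg R.n m).Fr) : RB where
  toReg := R
  B := gaps m B
  sub k i hi := by
    rcases mem_gaps.1 hi with h | ⟨f, -, rfl, rfl⟩
    · exact h ▸ Nat.lt_succ_iff.1 (m k).2
    · exact Nat.lt_succ_iff.1 f.1.2.2
  ne k := ⟨_, mem_gaps.2 (Or.inl rfl)⟩

/-- The equivalence. -/
def jEquiv : J ≃ J' where
  toFun x := ⟨mkRB x.1 x.2.1 x.2.2, x.2.1, fun _ => mem_gaps.2 (Or.inl rfl)⟩
  invFun x := ⟨x.1.toReg, x.2.1, frS x.1.n x.1.B x.2.1⟩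
  left_inv x := by
    obtain ⟨R, m, B⟩ := x
    have h := frS_gaps m B
    change (⟨R, m, frS R.n (gaps m B) m⟩ : J) = ⟨R, m, B⟩
    rw [h]
  right_inv x := by
    obtain ⟨T, m, hm⟩ := x
    have h := gaps_frS m T.sub hm
    obtain ⟨R, B, h1, h2⟩ := T
    have key : ∀ (B' : Fin 3 → Finset ℕ) (h1' : ∀ k, ∀ i ∈ B' k,
        i ≤ (univ.filter fun y => R.pl y = inl k).card) (h2' : ∀ k, (B' k).Nonempty)
        (hm' : ∀ k, (m k).1 ∈ B' k), B' = B →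
        (⟨⟨R, B', h1', h2'⟩, m, hm'⟩ : J') = ⟨⟨R, B, h1, h2⟩, m, hm⟩ := by
      rintro B' h1' h2' hm' rfl
      rfl
    exact key _ _ _ _ h

theorem sum_J {M : Type*} [AddCommMonoid M]
    (v : ∀ (R : Reg) (m : ∀ k, Fin (R.n k + 1)), Finset (wreg R.n m).Fr → M) :
    ∑ R, ∑ m, ∑ B, v R m B = ∑ T : RB,
      ∑ m : ∀ k, Fin (T.n k + 1) with ∀ k, (m k).1 ∈ T.B k, v T.toReg m (T.fr m) := by
  have h1 : ∑ R, ∑ m, ∑ B, v R m B = ∑ x : J, v x.1 x.2.1 x.2.2 := by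
    rw [Fintype.sum_sigma]
    refine Finset.sum_congr rfl fun R _ => ?_
    rw [Fintype.sum_sigma]
  have h2 : ∀ T : RB, ∑ m : ∀ k, Fin (T.n k + 1) with ∀ k, (m k).1 ∈ T.B k,
      v T.toReg m (T.fr m) = ∑ m : {m : ∀ k, Fin (T.n k + 1) // ∀ k, (m k).1 ∈ T.B k},
        v T.toReg m.1 (T.fr m.1) := fun T =>
    Finset.sum_subtype _ (fun m => by
      rw [Finset.mem_filter]
      exact ⟨fun h => h.2, fun h => ⟨Finset.mem_univ _, h⟩⟩) fun m => v T.toReg m (T.fr m)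
  have h3 : ∑ T : RB, ∑ m : {m : ∀ k, Fin (T.n k + 1) // ∀ k, (m k).1 ∈ T.B k},
      v T.toReg m.1 (T.fr m.1) = ∑ x : J', v x.1.toReg x.2.1 (x.1.fr x.2.1) := by
    rw [Fintype.sum_sigma]
  rw [h1, Finset.sum_congr rfl fun T _ => h2 T, h3]
  refine Fintype.sum_equiv jEquiv _ _ fun x => ?_
  obtain ⟨R, m, B⟩ := x
  change v R m B = v R m (frS R.n (gaps m B) m)
  rw [frS_gaps]

noncomputable instance : Fintype H95.Region := Fintype.ofEquiv Reg conv93.symm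

theorem sum_J95 {M : Type*} [AddCommMonoid M]
    (v : ∀ (R : H95.Region) (m : ∀ k, Fin (R.n k + 1)), Finset (wreg R.n m).Fr → M) :
    ∑ R, ∑ m, ∑ B, v R m B = ∑ T : RB,
      ∑ m : ∀ k, Fin (T.n k + 1) with ∀ k, (m k).1 ∈ T.B k,
        v (conv93.symm T.toReg) m (T.fr m) := by
  rw [← sum_J fun R m B => v (conv93.symm R) m B]
  exact Fintype.sum_equiv conv93 _ _ fun R => rfl

end Vale.Agent.P273.H93
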