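import Vale.Agent.P273.H93.Enc

/-!
The good regions are exactly the explicit ones, and the sum over the good regions.
-/

namespace Vale.Agent.P273.H93

open Sum Finset

/-- Normal forms: `o` is true unless both marks of the cores are in one group. -/
def Nf (e : Bool → Bool) (loc : Bool → Option (Fin 3)) (o : Bool) : Prop :=
  o = true ∨ (loc true = loc false ∧ loc true ≠ none ∧ e true = e false)

instance (e : Bool → Bool) (loc : Bool → Option (Fin 3)) (o : Bool) : Decidable (Nf e loc o) := by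
  unfold Nf; infer_instance

theorem enc_inj {p q p' q' : ℕ} {hp : p ≤ q} {hq : q ≤ 6} {hp' : p' ≤ q'} {hq' : q' ≤ 6}
    {f f' : Fin 6 → Bool} {o o' : Bool} {σ σ' : Bool → Equiv.Perm (Fin 7)} {e e' : Bool → Bool}
    {loc loc' : Bool → Option (Fin 3)} (hN : Nf e loc o) (hN' : Nf e' loc' o')
    (h : enc f o hp hq σ e loc = enc f' o' hp' hq' σ' e' loc') :
    p = p' ∧ q = q' ∧ f = f' ∧ o = o' ∧ σ = σ' ∧ e = e' ∧ loc = loc' := by
  have hc : ∀ k, len p q k = len p' q' k := fun k => by
    have h1 := enc_B_card (f := f) (o := o) (e := e) (loc := loc) hp hq σ k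
    have h2 := enc_B_card (f := f') (o := o') (e := e') (loc := loc') hp' hq' σ' k
    rw [h] at h1
    omega
  have h0 := hc 0
  have h1 := hc 1
  simp only [len, Matrix.cons_val_zero, Matrix.cons_val_one] at h0 h1
  subst h0
  obtain rfl : q = q' := by omega
  have hcomp : ∀ x, (enc f o hp hq σ e loc).comp x = (enc f' o' hp' hq' σ' e' loc').comp x :=
    fun x => by rw [h]
  have hσ : ∀ x : Mk, σ x.2 x.1 = σ' x.2 x.1 := by
    intro x
    have h2 := hcomp x
    by_cases hx : (σ x.2 x.1).1 < 6 <;> by_cases hy : (σ' x.2 x.1).1 < 6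
    · rw [enc_comp_lt hp hq σ hx, enc_comp_lt hp' hq' σ' hy] at h2
      simp only [Sum.inr.injEq, Prod.mk.injEq] at h2
      exact Fin.ext (pos_eq hp hq hx hy h2.1 h2.2)
    · rw [enc_comp_lt hp hq σ hx, enc_comp_six hp' hq' σ' hy] at h2
      cases h2
    · rw [enc_comp_six hp hq σ hx, enc_comp_lt hp' hq' σ' hy] at h2
      cases h2
    · apply Fin.ext
      omega
  obtain rfl : σ = σ' := by
    funext b
    ext i : 1
    exact hσ (i, b)
  have h6 : ∀ b, σ b ((σ b).symm 6) = 6 := fun b => by simp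
  have hn6 : ∀ b, ¬ (σ b ((σ b).symm 6)).1 < 6 := fun b => by rw [h6]; simp
  obtain rfl : e = e' := by
    funext b
    have h2 := hcomp ((σ b).symm 6, b)
    rw [enc_comp_six hp hq σ (x := ((σ b).symm 6, b)) (hn6 b),
      enc_comp_six hp' hq' σ (x := ((σ b).symm 6, b)) (hn6 b)] at h2
    exact Sum.inl_injective h2
  have hpl : ∀ x, (enc f o hp hq σ e loc).pl x = (enc f' o' hp' hq' σ e loc').pl x :=
    fun x => by rw [h]
  obtain rfl : loc = loc' := by
    funext b
    have h2 := hpl ((σ b).symm 6, b)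
    rw [enc_pl, enc_pl] at h2
    rcases hl : loc b with _ | k <;> rcases hl' : loc' b with _ | k'
    · rfl
    · rw [pl0_none (hn6 b) hl, pl0_some (hn6 b) hl'] at h2
      cases h2
    · rw [pl0_some (hn6 b) hl, pl0_none (hn6 b) hl'] at h2
      cases h2
    · rw [pl0_some (hn6 b) hl, pl0_some (hn6 b) hl'] at h2
      rw [Sum.inl_injective h2]
  have hrk : ∀ x, (enc f o hp hq σ e loc).rk x = (enc f' o' hp' hq' σ e loc).rk x :=
    fun x => by rw [h]
  refine ⟨rfl, rfl, ?_, ?_, rfl, rfl, rfl⟩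
  · funext t
    have h3 : σ true ((σ true).symm t.castSucc) = t.castSucc := by simp
    have h4 : (σ true ((σ true).symm t.castSucc)).1 < 6 := by rw [h3]; simp
    have h2 := hrk ((σ true).symm t.castSucc, true)
    rw [enc_rk, enc_rk, rk0_lt h4, rk0_lt h4] at h2
    simp only [h3] at h2
    have h5 : Fin.ofNat 6 (t.castSucc : Fin 7).1 = t := by
      apply Fin.ext
      simp only [Fin.ofNat_eq_cast, Fin.val_natCast, Fin.val_castSucc]
      omega
    rw [h5] at h2
    revert h2
    cases f t <;> cases f' t <;> simp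
  · have hr : ∀ b k, loc b = some k → ic e loc o b = ic e loc o' b := by
      intro b k hl
      have h2 := hrk ((σ b).symm 6, b)
      rw [enc_rk, enc_rk, rk0_some (hn6 b) hl, rk0_some (hn6 b) hl] at h2
      exact Nat.add_left_cancel h2
    have main : ∀ {o o' : Bool}, Nf e loc o' → (∀ b k, loc b = some k → ic e loc o b = ic e loc o' b) →
        o = true → o' = false → False := by
      rintro o o' hN' hr rfl rfl
      rcases hN' with h2 | ⟨h2, h3, h4⟩
      · cases h2
      · obtain ⟨k, hk⟩ := Option.ne_none_iff_exists'.1 h3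
        have := hr true k hk
        simp [ic, h2, h4] at this
    rcases ho : o with _ | _ <;> rcases ho' : o' with _ | _
    · rfl
    · exact (main hN (fun b k hl => (hr b k hl).symm) ho' ho).elim
    · exact (main hN' hr ho ho').elim
    · rfl

/-! ### Decoding -/

variable {T : RB}

theorem dec_len (hT : T.Good) :
    ∃ p q : ℕ, p ≤ q ∧ q ≤ 6 ∧ ∀ k, (T.B k).card = len p q k + 1 := by
  have h := hT.1
  rw [Fin.sum_univ_three] at h
  have h0 : ∀ k, 1 ≤ (T.B k).card := fun k => Finset.card_pos.2 (T.ne k)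
  have h1 := h0 0
  have h2 := h0 1
  have h3 := h0 2
  refine ⟨(T.B 0).card - 1, (T.B 0).card - 1 + ((T.B 1).card - 1), by omega, by omega,
    fun k => ?_⟩
  fin_cases k
  · simp [len]; omega
  · simp [len]; omega
  · simp [len]; omega

/-- The positions. -/
theorem dec_pos (hT : T.Good) {p q : ℕ} (hp : p ≤ q) (hq : q ≤ 6)
    (hB : ∀ k, (T.B k).card = len p q k + 1) :
    ∃ (σ : Bool → Equiv.Perm (Fin 7)) (e : Bool → Bool),
      (∀ x : Mk, (σ x.2 x.1).1 < 6 → T.comp x = inr (ch p q (σ x.2 x.1),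
        (σ x.2 x.1).1 - off p q (ch p q (σ x.2 x.1)) + 1)) ∧
      ∀ x : Mk, ¬ (σ x.2 x.1).1 < 6 → T.comp x = inl (e x.2) := by
  obtain ⟨-, hty, hfree⟩ := hT
  -- a mark of type b in the cluster t
  have h1 : ∀ (b : Bool) (t : Fin 6), ∃ i : Fin 7,
      T.comp (i, b) = inr (ch p q t, t.1 - off p q (ch p q t) + 1) := by
    intro b t
    have h2 := off_le hp hq t.2
    obtain ⟨x, y, hxy, hx, hy⟩ := hfree (ch p q t) (t.1 - off p q (ch p q t) + 1) (by omega)
      (by rw [hB]; omega)
    by_cases hb : x.2 = b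
    · exact ⟨x.1, by rw [← hb]; exact hx⟩
    · refine ⟨y.1, ?_⟩
      have hyb : y.2 = b := by
        by_contra hyb
        refine hxy (hty x y ?_ (hx.trans hy.symm))
        revert hb hyb
        cases x.2 <;> cases y.2 <;> cases b <;> simp
      rw [← hyb]; exact hy
  choose g hg using h1
  have hginj : ∀ b, Function.Injective (g b) := fun b t u h => by
    have h3 := hg b t
    rw [h, hg b u] at h3
    simp only [Sum.inr.injEq, Prod.mk.injEq] at h3
    exact Fin.ext (pos_eq hp hq t.2 u.2 h3.1.symm h3.2.symm)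
  have hns : ∀ b, ∃ i, i ∉ Set.range (g b) := fun b => by
    by_contra h
    push Not at h
    have := Fintype.card_le_of_surjective (g b) (fun i => h i)
    simp at this
  choose i0 hi0 using hns
  have hcore : ∀ b, ∃ z, T.comp (i0 b, b) = inl z := by
    intro b
    rcases hx : T.comp (i0 b, b) with z | ⟨k, r⟩
    · exact ⟨z, rfl⟩
    · exfalso
      obtain ⟨h2, h3, h4, h5⟩ := RB.comp_eq_inr.1 hx
      have h6 : r ≤ (T.B k).card := h3 ▸ Finset.card_le_card (Finset.filter_subset _ _)
      rw [hB] at h5 h6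
      have h7 := off_add_len hp hq k
      have ht : off p q k + r - 1 < 6 := by omega
      have hk : ch p q (off p q k + r - 1) = k := (ch_iff hp hq ht k).2 ⟨by omega, by omega⟩
      refine hi0 b ⟨⟨off p q k + r - 1, ht⟩, ?_⟩
      have h8 := hty (g b ⟨off p q k + r - 1, ht⟩, b) (i0 b, b) rfl (by
        rw [hg, hx]
        simp only [hk]
        congr 2
        omega)
      exact congrArg Prod.fst h8
  choose e he using hcore
  let G : Bool → Fin 7 → Fin 7 := fun b t => if h : t.1 < 6 then g b ⟨t, h⟩ else i0 b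
  have hG : ∀ b, Function.Bijective (G b) := fun b => by
    refine Finite.injective_iff_bijective.1 fun t u h => ?_
    simp only [G] at h
    by_cases ht : t.1 < 6 <;> by_cases hu : u.1 < 6
    · rw [dif_pos ht, dif_pos hu] at h
      exact Fin.ext (Fin.mk.inj (hginj b h))
    · rw [dif_pos ht, dif_neg hu] at h
      exact absurd ⟨_, h⟩ (hi0 b)
    · rw [dif_neg ht, dif_pos hu] at h
      exact absurd ⟨_, h.symm⟩ (hi0 b)
    · apply Fin.ext
      omega
  have hs : ∀ x : Mk, G x.2 ((Equiv.ofBijective (G x.2) (hG x.2)).symm x.1) = x.1 := fun x =>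
    (Equiv.ofBijective (G x.2) (hG x.2)).apply_symm_apply x.1
  refine ⟨fun b => (Equiv.ofBijective (G b) (hG b)).symm, e, fun x hx => ?_, fun x hx => ?_⟩
  · have h2 := hs x
    simp only [G] at h2
    rw [dif_pos hx] at h2
    have h3 := hg x.2 ⟨_, hx⟩
    rw [h2] at h3
    exact h3
  · have h2 := hs x
    simp only [G] at h2
    rw [dif_neg hx] at h2
    have h3 := he x.2
    rw [h2] at h3
    exact h3

/-- The number of marks of a neck with the ranks in an interval. -/
theorem Reg.card_Ico (R : Reg) {k : Fin 3} {L U : ℕ} (hU : U ≤ R.n k) :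
    (univ.filter fun x => R.pl x = inl k ∧ L ≤ R.rk x ∧ R.rk x < U).card = U - L := by
  have h1 : (univ.filter fun x => R.pl x = inl k ∧ L ≤ R.rk x ∧ R.rk x < U).image R.rk =
      Finset.Ico L U := by
    ext i
    rw [Finset.mem_image, Finset.mem_Ico]
    constructor
    · rintro ⟨x, hx, rfl⟩
      exact (Finset.mem_filter.1 hx).2.2
    · rintro ⟨h2, h3⟩
      obtain ⟨x, hx, rfl⟩ := R.exists_rk (k := k) (i := i) (by omega)
      exact ⟨x, Finset.mem_filter.2 ⟨Finset.mem_univ _, hx, h2, h3⟩, rfl⟩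
  rw [← Nat.card_Ico, ← h1, Finset.card_image_of_injOn]
  intro x hx y hy hxy
  exact R.inj x y k (Finset.mem_filter.1 (Finset.mem_coe.1 hx)).2.1
    (Finset.mem_filter.1 (Finset.mem_coe.1 hy)).2.1 hxy

/-- The neck of a zone. -/
def nk : Fin 3 ⊕ Bool → Option (Fin 3) := Sum.elim some fun _ => none

theorem nk_some {z : Fin 3 ⊕ Bool} {k : Fin 3} : nk z = some k ↔ z = inl k := by
  rcases z with k' | b <;> simp [nk]

/-- The good regions are explicit. -/
theorem exists_enc (hT : T.Good) : ∃ (p q : ℕ) (hp : p ≤ q) (hq : q ≤ 6) (f : Fin 6 → Bool)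
    (o : Bool) (σ : Bool → Equiv.Perm (Fin 7)) (e : Bool → Bool) (loc : Bool → Option (Fin 3)),
    Nf e loc o ∧ enc f o hp hq σ e loc = T := by
  obtain ⟨p, q, hp, hq, hB⟩ := dec_len hT
  obtain ⟨σ, e, h1, h2⟩ := dec_pos hT hp hq hB
  choose a ha using fun k => hT.exists_a k
  simp only [hB] at ha
  have hcnt : ∀ k i, T.cnt k i =
      if i < a k then 0 else min (len p q k) ((i - a k) / 2) + 1 := by
    intro k i
    unfold RB.cnt
    rw [ha, card_im]
  let c : Bool → Mk := fun b => ((σ b).symm 6, b)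
  have hc : ∀ b, ¬ (σ (c b).2 (c b).1).1 < 6 := by
    intro b
    simp [c]
  have hcc : ∀ b, T.comp (c b) = inl (e b) := fun b => h2 _ (hc b)
  have hcx : ∀ x : Mk, ∀ z, T.comp x = inl z → x = c x.2 := by
    intro x z hx
    have h3 : ¬ (σ x.2 x.1).1 < 6 := fun h => by rw [h1 x h] at hx; cases hx
    have h4 : σ x.2 x.1 = 6 := Fin.ext (by change (σ x.2 x.1).1 = 6; omega)
    refine Prod.ext ?_ rfl
    change x.1 = (σ x.2).symm 6
    rw [← h4, Equiv.symm_apply_apply]
  let loc : Bool → Option (Fin 3) := fun b => nk (T.pl (c b))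
  have hloc : ∀ b k, loc b = some k ↔ T.pl (c b) = inl k := fun b k => nk_some
  have hle : ∀ k, a k + 2 * len p q k ≤ T.n k := fun k => T.sub k _ (by
    rw [ha]
    exact Finset.mem_image.2 ⟨len p q k, by simp, rfl⟩)
  let L : Fin 3 → Bool → ℕ := fun k z => cond z (a k + 2 * len p q k) 0
  let U : Fin 3 → Bool → ℕ := fun k z => cond z (T.n k) (a k)
  have hU : ∀ k z, U k z ≤ T.n k := by
    intro k z
    have := hle k
    cases z
    · change a k ≤ T.n k
      omega
    · exact le_rfl
  have hz : ∀ x k z, T.pl x = inl k →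
      (T.comp x = inl z ↔ L k z ≤ T.rk x ∧ T.rk x < U k z) := by
    intro x k z hx
    have hlt := T.lt_n hx
    have := hle k
    have hN0 : T.cnt k (T.rk x) = 0 ↔ T.rk x < a k := by
      rw [hcnt]
      by_cases h : T.rk x < a k
      · rw [if_pos h]
        exact ⟨fun _ => h, fun _ => rfl⟩
      · rw [if_neg h]
        exact ⟨fun h' => by omega, fun h' => absurd h' h⟩
    have hN1 : T.cnt k (T.rk x) = len p q k + 1 ↔ a k + 2 * len p q k ≤ T.rk x := by
      rw [hcnt]
      by_cases h : T.rk x < a k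
      · rw [if_pos h]
        exact ⟨fun h' => by omega, fun h' => by omega⟩
      · rw [if_neg h]
        exact ⟨fun h' => by omega, fun h' => by omega⟩
    rw [RB.comp_neck hx, hB]
    cases z
    · simp only [L, U, cond_false]
      by_cases h3 : T.cnt k (T.rk x) = 0
      · rw [if_pos h3]
        exact ⟨fun _ => ⟨Nat.zero_le _, hN0.1 h3⟩, fun _ => rfl⟩
      · rw [if_neg h3]
        refine ⟨fun h => ?_, fun h => absurd (hN0.2 h.2) h3⟩
        split_ifs at h
        simp at h
    · simp only [L, U, cond_true]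
      by_cases h4 : T.cnt k (T.rk x) = len p q k + 1
      · rw [if_neg (by omega), if_pos h4]
        exact ⟨fun _ => ⟨hN1.1 h4, hlt⟩, fun _ => rfl⟩
      · rw [if_neg h4]
        refine ⟨fun h => ?_, fun h => absurd (hN1.2 h.1) h4⟩
        split_ifs at h
        simp at h
  have hcard : ∀ k z, nc e loc z k = U k z - L k z := by
    intro k z
    rw [← T.toReg.card_Ico (k := k) (L := L k z) (hU k z)]
    have h3 : (univ.filter fun x => T.pl x = inl k ∧ L k z ≤ T.rk x ∧ T.rk x < U k z) =
        (univ.filter fun b => loc b = some k ∧ e b = z).image c := by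
      ext x
      simp only [Finset.mem_filter, Finset.mem_image, Finset.mem_univ, true_and]
      constructor
      · rintro ⟨h3, h4⟩
        have h5 := (hz x k z h3).2 h4
        have h6 := hcx x z h5
        refine ⟨x.2, ⟨(hloc _ _).2 (h6 ▸ h3), ?_⟩, h6.symm⟩
        exact Sum.inl_injective ((hcc _).symm.trans ((congrArg T.comp h6).symm.trans h5))
      · rintro ⟨b, ⟨h3, h4⟩, rfl⟩
        exact ⟨(hloc _ _).1 h3, (hz _ k z ((hloc _ _).1 h3)).1 (by rw [hcc, h4])⟩
    rw [h3, Finset.card_image_of_injective _ (fun b b' h => congrArg Prod.snd h),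
      Finset.card_filter, Fintype.sum_bool]
    rfl
  have hrk : ∀ b k, loc b = some k → L k (e b) ≤ T.rk (c b) ∧ T.rk (c b) < U k (e b) :=
    fun b k hl => (hz _ k _ ((hloc _ _).1 hl)).1 (hcc b)
  let P : Prop := loc true = loc false ∧ loc true ≠ none ∧ e true = e false
  let o : Bool := if P then decide (T.rk (c true) < T.rk (c false)) else true
  have hN : Nf e loc o := by
    by_cases hP : P
    · exact Or.inr hP
    · exact Or.inl (if_neg hP)
  have hD : ∀ b k, loc b = some k → T.rk (c b) = L k (e b) + ic e loc o b := by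
    intro b k hl
    obtain ⟨h3, h4⟩ := hrk b k hl
    have h5 := hcard k (e b)
    by_cases hP : loc (!b) = loc b ∧ e (!b) = e b
    · have hne : T.rk (c b) ≠ T.rk (c !b) := fun h => by
        have h6 := T.inj (c b) (c !b) k ((hloc _ _).1 hl) ((hloc _ _).1 (hP.1.trans hl)) h
        have h' : b = !b := congrArg Prod.snd h6
        cases b <;> simp at h'
      obtain ⟨h6, h7⟩ := hrk (!b) k (hP.1.trans hl)
      rw [hP.2] at h6 h7
      have h8 : nc e loc (e b) k ≤ 2 := by unfold nc; split_ifs <;> omega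
      have hP' : P := by
        cases b
        · exact ⟨hP.1, by rw [show loc true = loc false from hP.1, hl]; simp, hP.2⟩
        · exact ⟨hP.1.symm, by rw [hl]; simp, hP.2.symm⟩
      have ho : o = decide (T.rk (c true) < T.rk (c false)) := if_pos hP'
      unfold ic
      rw [ho]
      cases b
      · rw [Bool.not_false] at *
        by_cases hlt : T.rk (c true) < T.rk (c false)
        · rw [decide_eq_true hlt, if_pos ⟨hP.1, hP.2, by simp⟩]
          omega
        · rw [decide_eq_false hlt, if_neg (by simp)]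
          omega
      · rw [Bool.not_true] at *
        by_cases hlt : T.rk (c true) < T.rk (c false)
        · rw [decide_eq_true hlt, if_neg (by simp)]
          omega
        · rw [decide_eq_false hlt, if_pos ⟨hP.1, hP.2, by simp⟩]
          omega
    · have h8 : nc e loc (e b) k = 1 := by
        unfold nc
        cases b
        · rw [Bool.not_false] at hP
          rw [if_neg (fun h => hP ⟨h.1.trans hl.symm, h.2⟩), if_pos ⟨hl, rfl⟩]
        · rw [Bool.not_true] at hP
          rw [if_pos ⟨hl, rfl⟩, if_neg (fun h => hP ⟨h.1.trans hl.symm, h.2⟩)]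
      have h9 : ic e loc o b = 0 := if_neg (fun h => hP ⟨h.1, h.2.1⟩)
      omega
  -- the clusters
  let d : Bool → Fin 6 → Mk := fun b t => ((σ b).symm t.castSucc, b)
  have hd : ∀ b t, T.pl (d b t) = inl (ch p q t) ∧
      a (ch p q t) + 2 * (t.1 - off p q (ch p q t)) ≤ T.rk (d b t) ∧
      T.rk (d b t) ≤ a (ch p q t) + 2 * (t.1 - off p q (ch p q t)) + 1 := by
    intro b t
    have h3 : σ (d b t).2 (d b t).1 = t.castSucc := by simp [d]
    have h4 := h1 (d b t) (by rw [h3]; simp)
    rw [h3] at h4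
    simp only [Fin.val_castSucc] at h4
    obtain ⟨h5, h6, h7, h8⟩ := RB.comp_eq_inr.1 h4
    have h9 := off_le hp hq t.2
    rw [hcnt] at h6
    refine ⟨h5, ?_, ?_⟩
    · split_ifs at h6
      omega
    · split_ifs at h6
      omega
  let f : Fin 6 → Bool := fun t => decide (T.rk (d true t) < T.rk (d false t))
  have hf : ∀ b t, T.rk (d b t) = a (ch p q t) + 2 * (t.1 - off p q (ch p q t)) +
      if f t = b then 0 else 1 := by
    intro b t
    obtain ⟨h3, h4, h5⟩ := hd true t
    obtain ⟨h6, h7, h8⟩ := hd false t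
    have hne : T.rk (d true t) ≠ T.rk (d false t) := fun h => by
      have h9 := T.inj _ _ _ h3 h6 h
      have h' : true = false := congrArg Prod.snd h9
      cases h'
    by_cases hlt : T.rk (d true t) < T.rk (d false t)
    · have hft : f t = true := decide_eq_true hlt
      cases b
      · rw [if_neg (by rw [hft]; simp)]
        omega
      · rw [if_pos hft]
        omega
    · have hft : f t = false := decide_eq_false hlt
      cases b
      · rw [if_pos hft]
        omega
      · rw [if_neg (by rw [hft]; simp)]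
        omega
  have ha0 : ∀ k, nc e loc false k = a k := fun k => by
    rw [hcard]
    simp [U, L]
  refine ⟨p, q, hp, hq, f, o, σ, e, loc, hN, ?_⟩
  have hdx : ∀ x : Mk, (σ x.2 x.1).1 < 6 → x = d x.2 (Fin.ofNat 6 (σ x.2 x.1).1) := by
    intro x hx
    have h3 : (Fin.ofNat 6 (σ x.2 x.1).1).castSucc = σ x.2 x.1 := by
      apply Fin.ext
      simp only [Fin.ofNat_eq_cast, Fin.val_castSucc, Fin.val_natCast]
      omega
    refine Prod.ext ?_ rfl
    change x.1 = (σ x.2).symm (Fin.ofNat 6 (σ x.2 x.1).1).castSucc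
    rw [h3, Equiv.symm_apply_apply]
  have hcx' : ∀ x : Mk, ¬ (σ x.2 x.1).1 < 6 → x = c x.2 := fun x hx => hcx x _ (h2 x hx)
  apply RB.ext
  · funext x
    rw [enc_pl]
    by_cases hx : (σ x.2 x.1).1 < 6
    · rw [pl0_lt hx, hdx x hx, (hd _ _).1, ← hdx x hx]
      congr 2
      simp only [Fin.ofNat_eq_cast, Fin.val_natCast]
      omega
    · rw [hcx' x hx]
      rcases hl : loc x.2 with _ | k
      · rw [pl0_none (hc x.2) hl]
        rcases hpl : T.pl (c x.2) with k | z
        · exact absurd ((hloc _ _).2 hpl) (by rw [hl]; simp)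
        · have h3 := hcc x.2
          rw [RB.comp_core hpl] at h3
          rw [Sum.inl_injective h3]
      · rw [pl0_some (hc x.2) hl, (hloc _ _).1 hl]
  · funext x
    rw [enc_rk]
    by_cases hx : (σ x.2 x.1).1 < 6
    · have h3 : (Fin.ofNat 6 (σ x.2 x.1).1).1 = (σ x.2 x.1).1 := by
        simp only [Fin.ofNat_eq_cast, Fin.val_natCast]
        omega
      have h4 := hf x.2 (Fin.ofNat 6 (σ x.2 x.1).1)
      rw [← hdx x hx, h3] at h4
      rw [rk0_lt hx, h4, ha0]
    · have h5 := hc x.2
      rw [hcx' x hx]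
      rcases hl : loc x.2 with _ | k
      · rcases hpl : T.pl (c x.2) with k | z
        · exact absurd ((hloc _ _).2 hpl) (by rw [hl]; simp)
        · rw [T.core _ _ hpl]
          exact pl0_core (e := e) (loc := loc) (pl0_none (p := p) (q := q) (hc x.2) hl)
      · rw [rk0_some (hc x.2) hl, hD x.2 k hl, ha0]
        simp only [L]
        cases e x.2
        · simp
        · simp
  · funext k
    rw [enc_B, ha, ha0]

/-! ### Finiteness -/

theorem Reg.n_le (R : Reg) (k : Fin 3) : R.n k ≤ 14 := by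
  unfold Reg.n
  exact (Finset.card_le_univ _).trans (by simp [Mk])

theorem Reg.rk_lt (R : Reg) (x : Mk) : R.rk x < 15 := by
  rcases h : R.pl x with k | b
  · have h1 := R.lt_n h
    have h2 := R.n_le k
    omega
  · rw [R.core x b h]
    omega

theorem RB.lt_of_mem (T : RB) {k : Fin 3} {i : ℕ} (h : i ∈ T.B k) : i < 15 := by
  have h1 : i ≤ T.n k := T.sub k i h
  have h2 := T.n_le k
  omega

instance : Finite Reg := by
  refine Finite.of_injective (fun R : Reg => (R.pl, fun x => (⟨R.rk x, R.rk_lt x⟩ : Fin 15)))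
    fun R R' h => ?_
  simp only [Prod.mk.injEq] at h
  refine Reg.ext h.1 (funext fun x => ?_)
  exact congrArg Fin.val (congrFun h.2 x)

instance : Finite RB := by
  refine Finite.of_injective (fun T : RB => (T.toReg, fun (k : Fin 3) (i : Fin 15) => i.1 ∈ T.B k))
    fun T T' h => ?_
  simp only [Prod.mk.injEq] at h
  refine RB.ext (congrArg Reg.pl h.1) (congrArg Reg.rk h.1) (funext fun k => ?_)
  ext i
  constructor
  · intro hi
    exact (congrFun (congrFun h.2 k) ⟨i, T.lt_of_mem hi⟩).mp hi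
  · intro hi
    exact (congrFun (congrFun h.2 k) ⟨i, T'.lt_of_mem hi⟩).mpr hi

noncomputable instance : Fintype Reg := Fintype.ofFinite Reg

noncomputable instance : Fintype RB := Fintype.ofFinite RB

/-! ### The sum -/

/-- The cells of a theta graph: the orders of the pairs, the necks of the marks of the cores, and
their order. -/
abbrev Cell : Type := (Fin 6 → Bool) × (Bool → Option (Fin 3)) × Bool

/-- The index set. -/
abbrev Idx : Type := (Fin 7 × Fin 7) × (Bool → Equiv.Perm (Fin 7)) × (Bool → Bool) × Cell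

theorem fin7_le (q : Fin 7) : q.1 ≤ 6 := by omega

/-- The sum over the good regions. -/
theorem sum_good {M : Type*} [AddCommMonoid M] (val : RB → M) (h0 : ∀ T, ¬ T.Good → val T = 0) :
    ∑ T, val T = ∑ q : Fin 7, ∑ p : Fin 7, if h : p.1 ≤ q.1 then ∑ σ : Bool → Equiv.Perm (Fin 7),
      ∑ e : Bool → Bool, ∑ c : Cell, if Nf e c.2.1 c.2.2 then
        val (enc c.1 c.2.2 h (fin7_le q) σ e c.2.1) else 0 else 0 := by
  let Xs : Type := {x : Idx // x.1.2.1 ≤ x.1.1.1 ∧ Nf x.2.2.1 x.2.2.2.2.1 x.2.2.2.2.2}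
  let φ : Xs → RB := fun x =>
    enc x.1.2.2.2.1 x.1.2.2.2.2.2 x.2.1 (fin7_le x.1.1.1) x.1.2.1 x.1.2.2.1 x.1.2.2.2.2.1
  have hφ : Function.Injective φ := by
    rintro ⟨⟨⟨q, p⟩, σ, e, f, loc, o⟩, h1, h2⟩ ⟨⟨⟨q', p'⟩, σ', e', f', loc', o'⟩, h1', h2'⟩ h
    obtain ⟨h3, h4, rfl, rfl, rfl, rfl, rfl⟩ := enc_inj h2 h2' h
    obtain rfl : p = p' := Fin.ext h3
    obtain rfl : q = q' := Fin.ext h4
    rfl
  have hr : ∀ T, T ∉ Set.range φ → val T = 0 := by
    intro T hT
    refine h0 T fun h => hT ?_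
    obtain ⟨p, q, hp, hq, f, o, σ, e, loc, hN, h⟩ := exists_enc h
    exact ⟨⟨⟨⟨⟨q, by omega⟩, ⟨p, by omega⟩⟩, σ, e, f, loc, o⟩, hp, hN⟩, h⟩
  rw [← Fintype.sum_of_injective φ hφ (fun x => val (φ x)) val hr (fun _ => rfl)]
  let g : Idx → M := fun x => if h : x.1.2.1 ≤ x.1.1.1 then
    (if Nf x.2.2.1 x.2.2.2.2.1 x.2.2.2.2.2 then
      val (enc x.2.2.2.1 x.2.2.2.2.2 h (fin7_le x.1.1) x.2.1 x.2.2.1 x.2.2.2.2.1) else 0) else 0
  rw [Fintype.sum_of_injective (Subtype.val : Xs → Idx) Subtype.val_injective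
    (fun x => val (φ x)) g (fun x hx => ?_) (fun x => ?_)]
  · rw [Fintype.sum_prod_type, Fintype.sum_prod_type]
    refine Finset.sum_congr rfl fun q _ => Finset.sum_congr rfl fun p _ => ?_
    by_cases h : p.1 ≤ q.1
    · rw [dif_pos h, Fintype.sum_prod_type]
      refine Finset.sum_congr rfl fun σ _ => ?_
      rw [Fintype.sum_prod_type]
      refine Finset.sum_congr rfl fun e _ => Finset.sum_congr rfl fun c _ => ?_
      exact dif_pos h
    · rw [dif_neg h]
      exact Finset.sum_eq_zero fun x _ => dif_neg h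
  · simp only [g]
    split_ifs with h1 h2
    · exact absurd ⟨⟨x, h1, h2⟩, rfl⟩ hx
    · rfl
    · rfl
  · obtain ⟨x, h1, h2⟩ := x
    simp only [g, φ]
    rw [dif_pos h1, if_pos h2]

theorem sum_bool_fun {M : Type*} [AddCommMonoid M] (g : (Bool → Bool) → M) :
    ∑ e, g e = g (fun _ => true) + g (fun _ => false) + g (fun b => b) + g (fun b => !b) := by
  have h1 : (univ : Finset (Bool → Bool)) =
      {(fun _ => true), (fun _ => false), (fun b => b), (fun b => !b)} := by decide
  rw [h1, Finset.sum_insert (by decide), Finset.sum_insert (by decide),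
    Finset.sum_insert (by decide), Finset.sum_singleton]
  simp only [add_assoc]

/-- The sign of the two legs of the cores. -/
def sge (e : Bool → Bool) : ℝ := if e true = e false then 1 else -1

theorem DS_sum (p q : ℕ) (G : Gr → ℝ) :
    DS p q G = ∑ σ : Bool → Equiv.Perm (Fin 7), ∑ e : Bool → Bool,
      (sgn σ : ℝ) * sge e * G (thE e p q σ) := by
  unfold DS ES
  simp only [sum_bool_fun, Finset.sum_add_distrib, zsmul_eq_mul]
  simp [sge]
  ring

/-- **The combinatorics of the limit.** -/
theorem sum_val (val : RB → ℝ) (C : ℕ → ℕ → ℝ) (G : Gr → ℝ)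
    (piece : ℕ → ℕ → (Bool → Equiv.Perm (Fin 7)) → (Bool → Bool) → Cell → ℝ)
    (h0 : ∀ T, ¬ T.Good → val T = 0)
    (h1 : ∀ p q (hp : p ≤ q) (hq : q ≤ 6) σ e (c : Cell), Nf e c.2.1 c.2.2 →
      val (enc c.1 c.2.2 hp hq σ e c.2.1) = C p q * (sgn σ * sge e) * piece p q σ e c)
    (h2 : ∀ p q, p ≤ q → q ≤ 6 → ∀ σ e,
      ∑ c with Nf e c.2.1 c.2.2, piece p q σ e c = G (thE e p q σ)) :
    ∑ T, val T = ∑ q ∈ Finset.range 7, ∑ p ∈ Finset.range (q + 1), C p q * DS p q G := by
  rw [sum_good val h0, Finset.sum_range]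
  refine Finset.sum_congr rfl fun q _ => ?_
  have h3 : ∀ p : Fin 7, (if h : p.1 ≤ q.1 then ∑ σ : Bool → Equiv.Perm (Fin 7),
      ∑ e : Bool → Bool, ∑ c : Cell, if Nf e c.2.1 c.2.2 then
        val (enc c.1 c.2.2 h (fin7_le q) σ e c.2.1) else 0 else 0) =
      if p.1 ≤ q.1 then C p q * DS p q G else 0 := by
    intro p
    by_cases h : p.1 ≤ q.1
    · rw [dif_pos h, if_pos h, DS_sum, Finset.mul_sum]
      refine Finset.sum_congr rfl fun σ _ => ?_
      rw [Finset.mul_sum]
      refine Finset.sum_congr rfl fun e _ => ?_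
      rw [← h2 p q h (fin7_le q) σ e, Finset.mul_sum, Finset.mul_sum, Finset.sum_filter]
      refine Finset.sum_congr rfl fun c _ => ?_
      by_cases hc : Nf e c.2.1 c.2.2
      · rw [if_pos hc, if_pos hc, h1 p q h (fin7_le q) σ e c hc]
        ring
      · rw [if_neg hc, if_neg hc]
    · rw [dif_neg h, if_neg h]
  rw [Finset.sum_congr rfl fun p _ => h3 p, Fin.sum_univ_eq_sum_range
    (fun p => if p ≤ q.1 then C p q * DS p q G else 0) 7, ← Finset.sum_filter]
  refine Finset.sum_congr ?_ fun _ _ => rfl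
  ext p
  simp only [Finset.mem_filter, Finset.mem_range]
  omega

end Vale.Agent.P273.H93
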