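import Vale.Agent.P273.H93.Reg

/-!
The good regions: explicit form.
-/

namespace Vale.Agent.P273.H93

open Sum Finset

/-! ### The three chains -/

/-- The chain of the position `t`. -/
def ch (p q t : ℕ) : Fin 3 := if t < p then 0 else if t < q then 1 else 2

/-- The first position of the chain `k`. -/
def off (p q : ℕ) : Fin 3 → ℕ := ![0, p, q]

/-- The number of positions of the chain `k`. -/
def len (p q : ℕ) : Fin 3 → ℕ := ![p, q - p, 6 - q]

theorem ch_iff {p q t : ℕ} (hp : p ≤ q) (hq : q ≤ 6) (ht : t < 6) (k : Fin 3) :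
    ch p q t = k ↔ off p q k ≤ t ∧ t < off p q k + len p q k := by
  unfold ch off len
  fin_cases k
  · simp only [Fin.zero_eta, Matrix.cons_val_zero, zero_le, zero_add, true_and]
    split_ifs with h1 h2 <;> simp [h1]
  · simp only [Fin.mk_one, Matrix.cons_val_one, Matrix.cons_val_zero]
    split_ifs with h1 h2
    · simp only [Fin.isValue, zero_ne_one, false_iff]; omega
    · simp only [true_iff]; omega
    · simp only [Fin.isValue, Fin.reduceEq, false_iff]; omega
  · simp only [Fin.reduceFinMk, Matrix.cons_val]
    split_ifs with h1 h2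
    · simp only [Fin.isValue, Fin.reduceEq, false_iff]; omega
    · simp only [Fin.isValue, Fin.reduceEq, false_iff]; omega
    · simp only [true_iff]; omega

theorem off_le {p q t : ℕ} (hp : p ≤ q) (hq : q ≤ 6) (ht : t < 6) :
    off p q (ch p q t) ≤ t ∧ t < off p q (ch p q t) + len p q (ch p q t) :=
  (ch_iff hp hq ht _).1 rfl

theorem off_add_len {p q : ℕ} (hp : p ≤ q) (hq : q ≤ 6) (k : Fin 3) :
    off p q k + len p q k ≤ 6 := by
  unfold off len
  fin_cases k
  · simp; omega
  · simp; omega
  · simp; omega

theorem sum_ch : ∀ p q : Fin 7, p ≤ q → ∀ k : Fin 3,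
    ∑ t : Fin 6, (if ch p q t = k then 1 else 0) = len p q k := by
  decide

/-! ### The explicit regions -/

/-- The number of the marks of the core that are in the neck `k`, next to the core `z`. -/
def nc (e : Bool → Bool) (loc : Bool → Option (Fin 3)) (z : Bool) (k : Fin 3) : ℕ :=
  (if loc true = some k ∧ e true = z then 1 else 0) +
    if loc false = some k ∧ e false = z then 1 else 0

/-- The rank, in its group, of the mark of type `b` of the core. -/
def ic (e : Bool → Bool) (loc : Bool → Option (Fin 3)) (o : Bool) (b : Bool) : ℕ :=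
  if loc (!b) = loc b ∧ e (!b) = e b ∧ o ≠ b then 1 else 0

theorem ic_lt {e : Bool → Bool} {loc : Bool → Option (Fin 3)} {o b : Bool} {k : Fin 3}
    (h : loc b = some k) : ic e loc o b < nc e loc (e b) k := by
  unfold ic nc
  cases b
  · rw [h]
    simp only [Bool.not_false, and_self, if_true]
    split_ifs with h1 h2 h2
    · omega
    · exact absurd ⟨h1.1, h1.2.1⟩ h2
    · omega
    · omega
  · rw [h]
    simp only [Bool.not_true, and_self, if_true]
    split_ifs with h1 h2 h2
    · omega
    · exact absurd ⟨h1.1, h1.2.1⟩ h2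
    · omega
    · omega

theorem ic_ne {e : Bool → Bool} {loc : Bool → Option (Fin 3)} {o b : Bool}
    (h : loc (!b) = loc b) (h' : e (!b) = e b) : ic e loc o b ≠ ic e loc o (!b) := by
  unfold ic
  rw [Bool.not_not]
  simp only [h, h', true_and]
  cases b <;> cases o <;> simp

variable (p q : ℕ) (e : Bool → Bool) (f : Fin 6 → Bool) (loc : Bool → Option (Fin 3)) (o : Bool)

/-- The zone of the mark of type `b` with the position `t`. -/
def pl0 (t : Fin 7) (b : Bool) : Fin 3 ⊕ Bool :=
  if t.1 < 6 then inl (ch p q t) else (loc b).elim (inr (e b)) inl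

/-- Its rank. -/
def rk0 (t : Fin 7) (b : Bool) : ℕ :=
  if t.1 < 6 then nc e loc false (ch p q t) + 2 * (t - off p q (ch p q t)) +
    (if f (Fin.ofNat 6 t) = b then 0 else 1)
  else (loc b).elim 0 fun k =>
    (if e b = true then nc e loc false k + 2 * len p q k else 0) + ic e loc o b

variable {p q e f loc o}

theorem pl0_lt {t : Fin 7} {b : Bool} (ht : t.1 < 6) : pl0 p q e loc t b = inl (ch p q t) :=
  if_pos ht

theorem rk0_lt {t : Fin 7} {b : Bool} (ht : t.1 < 6) : rk0 p q e f loc o t b =
    nc e loc false (ch p q t) + 2 * (t - off p q (ch p q t)) +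
    (if f (Fin.ofNat 6 t) = b then 0 else 1) := if_pos ht

theorem pl0_none {t : Fin 7} {b : Bool} (ht : ¬ t.1 < 6) (h : loc b = none) :
    pl0 p q e loc t b = inr (e b) := by
  unfold pl0; rw [if_neg ht, h]; rfl

theorem pl0_some {t : Fin 7} {b : Bool} {k : Fin 3} (ht : ¬ t.1 < 6) (h : loc b = some k) :
    pl0 p q e loc t b = inl k := by
  unfold pl0; rw [if_neg ht, h]; rfl

theorem rk0_some {t : Fin 7} {b : Bool} {k : Fin 3} (ht : ¬ t.1 < 6) (h : loc b = some k) :
    rk0 p q e f loc o t b =
    (if e b = true then nc e loc false k + 2 * len p q k else 0) + ic e loc o b := by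
  unfold rk0; rw [if_neg ht, h]; rfl

theorem pl0_eq_inl {t : Fin 7} {b : Bool} {k : Fin 3} (h : pl0 p q e loc t b = inl k) :
    (t.1 < 6 ∧ ch p q t = k) ∨ (¬ t.1 < 6 ∧ loc b = some k) := by
  by_cases ht : t.1 < 6
  · rw [pl0_lt ht] at h
    exact Or.inl ⟨ht, Sum.inl_injective h⟩
  · refine Or.inr ⟨ht, ?_⟩
    rcases hl : loc b with _ | k'
    · rw [pl0_none ht hl] at h; cases h
    · rw [pl0_some ht hl] at h
      rw [Sum.inl_injective h]

theorem pl0_core {t : Fin 7} {b z : Bool} (h : pl0 p q e loc t b = inr z) :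
    rk0 p q e f loc o t b = 0 := by
  by_cases ht : t.1 < 6
  · rw [pl0_lt ht] at h; cases h
  · rcases hl : loc b with _ | k'
    · unfold rk0; rw [if_neg ht, hl]; rfl
    · rw [pl0_some ht hl] at h; cases h

theorem rk0_inj (hp : p ≤ q) (hq : q ≤ 6) {t t' : Fin 7} {b b' : Bool} {k : Fin 3}
    (h : pl0 p q e loc t b = inl k) (h' : pl0 p q e loc t' b' = inl k)
    (hr : rk0 p q e f loc o t b = rk0 p q e f loc o t' b') : t = t' ∧ b = b' := by
  -- a position of a chain and a mark of the core have different ranks
  have key : ∀ {t t' : Fin 7} {b b' : Bool}, t.1 < 6 → ch p q t = k → ¬ t'.1 < 6 →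
      loc b' = some k → rk0 p q e f loc o t b ≠ rk0 p q e f loc o t' b' := by
    intro t t' b b' ht hk ht' hl hr
    rw [rk0_lt ht, rk0_some ht' hl, hk] at hr
    have h1 := off_le hp hq ht
    rw [hk] at h1
    have h2 := ic_lt (e := e) (o := o) hl
    by_cases hb : e b' = true
    · rw [if_pos hb] at hr
      split_ifs at hr <;> omega
    · rw [if_neg hb] at hr
      rw [Bool.not_eq_true] at hb
      rw [hb] at h2
      omega
  rcases pl0_eq_inl h with ⟨ht, hk⟩ | ⟨ht, hk⟩ <;> rcases pl0_eq_inl h' with ⟨ht', hk'⟩ | ⟨ht', hk'⟩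
  · rw [rk0_lt ht, rk0_lt ht', hk, hk'] at hr
    have h1 := off_le hp hq ht
    have h2 := off_le hp hq ht'
    rw [hk] at h1
    rw [hk'] at h2
    have htt : t = t' := by
      apply Fin.ext
      split_ifs at hr <;> omega
    subst htt
    refine ⟨rfl, ?_⟩
    split_ifs at hr with h3 h4 h4
    · rw [← h3, h4]
    · omega
    · omega
    · revert h3 h4
      cases f (Fin.ofNat 6 t) <;> cases b <;> cases b' <;> simp
  · exact absurd hr (key ht hk ht' hk')
  · exact absurd hr.symm (key ht' hk' ht hk)
  · have htt : t = t' := by apply Fin.ext; omega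
    refine ⟨htt, ?_⟩
    by_contra hbb
    have hb' : b' = !b := by revert hbb; cases b <;> cases b' <;> simp
    subst hb'
    rw [rk0_some ht hk, rk0_some ht' hk'] at hr
    have h1 := ic_lt (e := e) (o := o) hk
    have h2 := ic_lt (e := e) (o := o) hk'
    by_cases he : e (!b) = e b
    · rw [he] at hr
      exact ic_ne (o := o) (hk'.trans hk.symm) he (by omega)
    · rcases hb1 : e b with _ | _ <;> rcases hb2 : e (!b) with _ | _
      · exact he (hb2.trans hb1.symm)
      · rw [hb1, hb2] at hr
        rw [hb1] at h1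
        simp only [Bool.false_eq_true, if_false, if_true] at hr
        omega
      · rw [hb1, hb2] at hr
        rw [hb2] at h2
        simp only [Bool.false_eq_true, if_false, if_true] at hr
        omega
      · exact he (hb2.trans hb1.symm)

theorem card_pl0 (hp : p ≤ q) (hq : q ≤ 6) (k : Fin 3) :
    (univ.filter fun s : Fin 7 × Bool => pl0 p q e loc s.1 s.2 = inl k).card =
      nc e loc false k + 2 * len p q k + nc e loc true k := by
  have h1 : ∀ b, ∑ t : Fin 7, (if pl0 p q e loc t b = inl k then 1 else 0) =
      len p q k + if loc b = some k then 1 else 0 := by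
    intro b
    rw [Fin.sum_univ_castSucc]
    congr 1
    · rw [← sum_ch ⟨p, by omega⟩ ⟨q, by omega⟩ hp k]
      refine Finset.sum_congr rfl fun t _ => ?_
      rw [pl0_lt (by simp)]
      simp only [Sum.inl.injEq, Fin.val_castSucc]
    · have h6 : ¬ (Fin.last 6).1 < 6 := by simp
      rcases hl : loc b with _ | k'
      · rw [pl0_none h6 hl]; simp
      · rw [pl0_some h6 hl]; simp
  rw [Finset.card_filter, Fintype.sum_prod_type_right]
  simp only [h1, Fintype.sum_bool]
  unfold nc
  rcases h2 : e true with _ | _ <;> rcases h3 : e false with _ | _ <;>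
    simp <;> omega

theorem rk0_lt_card (hp : p ≤ q) (hq : q ≤ 6) {t : Fin 7} {b : Bool} {k : Fin 3}
    (h : pl0 p q e loc t b = inl k) : rk0 p q e f loc o t b <
      nc e loc false k + 2 * len p q k + nc e loc true k := by
  rcases pl0_eq_inl h with ⟨ht, hk⟩ | ⟨ht, hk⟩
  · rw [rk0_lt ht, hk]
    have h1 := off_le hp hq ht
    rw [hk] at h1
    split_ifs <;> omega
  · rw [rk0_some ht hk]
    have h1 := ic_lt (e := e) (o := o) hk
    rcases hb : e b with _ | _
    · rw [hb] at h1
      simp only [Bool.false_eq_true, if_false]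
      omega
    · rw [hb] at h1
      simp only [if_true]
      omega

/-- The positions of the marks. -/
def slot (σ : Bool → Equiv.Perm (Fin 7)) : Mk ≃ Fin 7 × Bool where
  toFun x := (σ x.2 x.1, x.2)
  invFun s := ((σ s.2).symm s.1, s.2)
  left_inv x := by simp
  right_inv s := by simp

theorem card_slot (hp : p ≤ q) (hq : q ≤ 6) (σ : Bool → Equiv.Perm (Fin 7)) (k : Fin 3) :
    (univ.filter fun x : Mk => pl0 p q e loc (σ x.2 x.1) x.2 = inl k).card =
      nc e loc false k + 2 * len p q k + nc e loc true k := by
  rw [← card_pl0 (e := e) (loc := loc) hp hq k]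
  refine Finset.card_bij (fun x _ => slot σ x) (fun x hx => ?_) (fun x _ y _ h => (slot σ).injective h)
    fun s hs => ⟨(slot σ).symm s, ?_, by simp⟩
  · rw [Finset.mem_filter] at hx ⊢
    exact ⟨Finset.mem_univ _, hx.2⟩
  · rw [Finset.mem_filter] at hs ⊢
    refine ⟨Finset.mem_univ _, ?_⟩
    simpa [slot] using hs.2

variable (f o)

/-- The explicit good region: `σ b i` is the position of the mark `(i, b)`; the positions `t < 6` are
clusters on the three chains of lengths `p, q - p, 6 - q`, the position `6` is the core `e b`; `f t`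
is the type of the first mark of the cluster `t`; `loc b` is the neck that contains the mark of type
`b` of the core (if any), and `o` is the type of the first mark if both are in one group. -/
@[simps] def enc (hp : p ≤ q) (hq : q ≤ 6) (σ : Bool → Equiv.Perm (Fin 7)) (e : Bool → Bool)
    (loc : Bool → Option (Fin 3)) : RB where
  pl x := pl0 p q e loc (σ x.2 x.1) x.2
  rk x := rk0 p q e f loc o (σ x.2 x.1) x.2
  core x b h := pl0_core h
  inj x y k hx hy h := by
    obtain ⟨h1, h2⟩ := rk0_inj hp hq hx hy h
    rw [h2] at h1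
    exact Prod.ext ((σ y.2).injective h1) h2
  lt x k h := by
    rw [card_slot hp hq]
    exact rk0_lt_card hp hq h
  B k := (range (len p q k + 1)).image fun r => nc e loc false k + 2 * r
  sub k i hi := by
    rw [card_slot hp hq]
    obtain ⟨r, hr, rfl⟩ := Finset.mem_image.1 hi
    rw [Finset.mem_range] at hr
    omega
  ne k := ⟨nc e loc false k + 2 * 0, Finset.mem_image.2 ⟨0, by simp, rfl⟩⟩


/-! ### The components of the explicit regions -/

theorem card_im (a m i : ℕ) :
    (((range (m + 1)).image fun r => a + 2 * r).filter (· ≤ i)).card =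
      if i < a then 0 else min m ((i - a) / 2) + 1 := by
  rw [Finset.filter_image, Finset.card_image_of_injective _ (fun r s h => by simpa using h)]
  split_ifs with h
  · rw [Finset.card_eq_zero, Finset.filter_eq_empty_iff]
    intro r _
    omega
  · have h1 : (range (m + 1)).filter (fun r => a + 2 * r ≤ i) =
        range (min m ((i - a) / 2) + 1) := by
      ext r
      simp only [Finset.mem_filter, Finset.mem_range]
      omega
    rw [h1, Finset.card_range]

variable {f o}

section
variable (hp : p ≤ q) (hq : q ≤ 6) (σ : Bool → Equiv.Perm (Fin 7))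

theorem enc_B_card (k : Fin 3) : ((enc f o hp hq σ e loc).B k).card = len p q k + 1 := by
  rw [enc_B, Finset.card_image_of_injective _ (fun r s h => by simpa using h), Finset.card_range]

theorem enc_cnt (k : Fin 3) (i : ℕ) : (enc f o hp hq σ e loc).cnt k i =
    if i < nc e loc false k then 0 else min (len p q k) ((i - nc e loc false k) / 2) + 1 := by
  unfold RB.cnt
  rw [enc_B, card_im]

/-- The mark in the cluster `t`. -/
theorem enc_comp_lt {x : Mk} (hx : (σ x.2 x.1).1 < 6) :
    (enc f o hp hq σ e loc).comp x = inr (ch p q (σ x.2 x.1),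
      (σ x.2 x.1).1 - off p q (ch p q (σ x.2 x.1)) + 1) := by
  have h1 := off_le hp hq hx
  have h2 : (enc f o hp hq σ e loc).cnt (ch p q (σ x.2 x.1)) ((enc f o hp hq σ e loc).rk x) =
      (σ x.2 x.1).1 - off p q (ch p q (σ x.2 x.1)) + 1 := by
    rw [enc_cnt, enc_rk, rk0_lt hx]
    split_ifs <;> omega
  refine RB.comp_eq_inr.2 ⟨?_, h2, by omega, ?_⟩
  · rw [enc_pl, pl0_lt hx]
  · rw [enc_B_card]; omega

/-- The mark in the core. -/
theorem enc_comp_six {x : Mk} (hx : ¬ (σ x.2 x.1).1 < 6) :
    (enc f o hp hq σ e loc).comp x = inl (e x.2) := by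
  rcases hl : loc x.2 with _ | k
  · exact RB.comp_core (by rw [enc_pl, pl0_none hx hl])
  · rw [RB.comp_neck (k := k) (by rw [enc_pl, pl0_some hx hl]), enc_B_card, enc_cnt, enc_rk,
      rk0_some hx hl]
    have h2 := ic_lt (e := e) (o := o) hl
    rcases hb : e x.2 with _ | _
    · rw [hb] at h2
      have h3 : (if false = true then nc e loc false k + 2 * len p q k else 0) + ic e loc o x.2 <
          nc e loc false k := by simpa using h2
      rw [if_pos h3, if_pos rfl]
    · have h3 : ¬ ((if true = true then nc e loc false k + 2 * len p q k else 0) +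
          ic e loc o x.2 < nc e loc false k) := by rw [if_pos rfl]; omega
      rw [if_neg h3, if_neg (by omega), if_pos]
      rw [if_pos rfl]
      omega

theorem sum_len (hp : p ≤ q) (hq : q ≤ 6) : ∑ k, (len p q k + 1) = 9 := by
  rw [Fin.sum_univ_three]
  simp only [len, Matrix.cons_val_zero, Matrix.cons_val_one, Matrix.cons_val]
  omega

include hp hq in
/-- A position is determined by its chain and its place. -/
theorem pos_eq {t u : ℕ} (ht : t < 6) (hu : u < 6) (h : ch p q t = ch p q u)
    (h' : t - off p q (ch p q t) + 1 = u - off p q (ch p q u) + 1) : t = u := by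
  have h1 := off_le hp hq ht
  have h2 := off_le hp hq hu
  rw [h] at h1 h'
  omega

/-- The explicit regions are good. -/
theorem enc_good : (enc f o hp hq σ e loc).Good := by
  refine ⟨?_, ?_, ?_⟩
  · simp only [enc_B_card]
    exact sum_len hp hq
  · intro x y hxy h
    have h6 : σ x.2 x.1 = σ y.2 y.1 := by
      by_cases hx : (σ x.2 x.1).1 < 6 <;> by_cases hy : (σ y.2 y.1).1 < 6
      · rw [enc_comp_lt hp hq σ hx, enc_comp_lt hp hq σ hy] at h
        simp only [Sum.inr.injEq, Prod.mk.injEq] at h
        exact Fin.ext (pos_eq hp hq hx hy h.1 h.2)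
      · rw [enc_comp_lt hp hq σ hx, enc_comp_six hp hq σ hy] at h
        cases h
      · rw [enc_comp_six hp hq σ hx, enc_comp_lt hp hq σ hy] at h
        cases h
      · apply Fin.ext
        omega
    rw [hxy] at h6
    exact Prod.ext ((σ y.2).injective h6) hxy
  · intro k r h1 h2
    rw [enc_B_card] at h2
    have h3 := off_add_len hp hq k
    have ht : off p q k + r - 1 < 6 := by omega
    have hk : ch p q (off p q k + r - 1) = k := (ch_iff hp hq ht k).2 ⟨by omega, by omega⟩
    have key : ∀ b, (enc f o hp hq σ e loc).comp ((σ b).symm ⟨off p q k + r - 1, by omega⟩, b) =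
        inr (k, r) := by
      intro b
      have h4 : σ b ((σ b).symm ⟨off p q k + r - 1, by omega⟩) = ⟨off p q k + r - 1, by omega⟩ := by
        simp
      have h5 := enc_comp_lt (f := f) (o := o) (e := e) (loc := loc) hp hq σ
        (x := ((σ b).symm ⟨off p q k + r - 1, by omega⟩, b)) (by rw [h4]; exact ht)
      simp only [h4, hk] at h5
      rw [h5]
      congr 2
      omega
    exact ⟨_, _, by simp, key true, key false⟩

end

end Vale.Agent.P273.H93
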