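import Vale.Agent.P273.H93.Dict

/-!
The sum over all regions, eliminated gaps, far marks and sets of six free gaps.
-/

noncomputable section

namespace Vale.Agent.P273.H93

open Sum Finset H728 H95
open H573 hiding cmp

theorem nine_iff {Q : RB} {m : ∀ k, Fin (Q.n k + 1)} (hm : ∀ k, (m k).1 ∈ Q.B k) :
    (Q.fr m).card = 6 ↔ ∑ k, (Q.B k).card = 9 := by
  rw [RB.card_fr hm, Fin.sum_univ_three, Fin.sum_univ_three]
  have h0 : ∀ k, 1 ≤ (Q.B k).card := fun k => Finset.card_pos.2 (Q.ne k)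
  have h1 := h0 0
  have h2 := h0 1
  have h3 := h0 2
  omega

/-- **The sum over the regions.** -/
theorem sum_regions {X : Ext} {F : H503.Form16} (hP : PieceSum F X)
    (Lv : ∀ (R : Region) (m : ∀ k, Fin (R.n k + 1)), (R.Cm → Bool) →
      Finset (H562.W R m).Fr → ℝ) (cof : RB → ℝ) (C : ℕ → ℕ → ℝ)
    (hL : ∀ Q : RB, ∑ k, (Q.B k).card = 9 → ∀ far : (rg Q).Cm → Bool,
      ∑ m : ∀ k, Fin ((rg Q).n k + 1) with ∀ k, (m k).1 ∈ Q.B k, Lv (rg Q) m far (Q.fr m) =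
        cof Q * piece (rg Q) X far (gB Q))
    (h0 : ∀ Q : RB, ¬ Q.Good → ∑ k, (Q.B k).card = 9 → cof Q = 0)
    (h1 : ∀ (p q : ℕ) (hp : p ≤ q) (hq : q ≤ 6) (σ : Bool → Equiv.Perm (Fin 7))
      (e : Bool → Bool) (c : Cell), Nf e c.2.1 c.2.2 →
      cof (enc c.1 c.2.2 hp hq σ e c.2.1) = C p q * ((sgn σ : ℝ) * sge e)) :
    ∑ R : Region, ∑ m : ∀ k, Fin (R.n k + 1), ∑ far : R.Cm → Bool,
      ∑ B ∈ (Finset.univ : Finset (Finset (H562.W R m).Fr)).filter (fun B => B.card = 6),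
        Lv R m far B =
      ∑ q ∈ Finset.range 7, ∑ p ∈ Finset.range (q + 1), C p q * DS p q (H503.str F) := by
  let val : RB → ℝ := fun Q => if ∑ k, (Q.B k).card = 9 then
    cof Q * ∑ far : (rg Q).Cm → Bool, piece (rg Q) X far (gB Q) else 0
  have e1 : ∑ R : Region, ∑ m : ∀ k, Fin (R.n k + 1), ∑ far : R.Cm → Bool,
      ∑ B ∈ (Finset.univ : Finset (Finset (H562.W R m).Fr)).filter (fun B => B.card = 6),
        Lv R m far B = ∑ R : Region, ∑ m : ∀ k, Fin (R.n k + 1),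
      ∑ B : Finset (H732.wreg R.n m).Fr,
        if B.card = 6 then ∑ far : R.Cm → Bool, Lv R m far B else 0 := by
    refine Finset.sum_congr rfl fun R _ => Finset.sum_congr rfl fun m _ => ?_
    rw [Finset.sum_comm, Finset.sum_filter]
  have e2 : ∀ Q : RB, ∑ m : ∀ k, Fin (Q.n k + 1) with ∀ k, (m k).1 ∈ Q.B k,
      (if (Q.fr m).card = 6 then ∑ far : (rg Q).Cm → Bool, Lv (rg Q) m far (Q.fr m) else 0) =
      val Q := by
    intro Q
    by_cases h9 : ∑ k, (Q.B k).card = 9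
    · have h2 : ∑ m : ∀ k, Fin (Q.n k + 1) with ∀ k, (m k).1 ∈ Q.B k,
          (if (Q.fr m).card = 6 then ∑ far : (rg Q).Cm → Bool, Lv (rg Q) m far (Q.fr m) else 0) =
          ∑ m : ∀ k, Fin ((rg Q).n k + 1) with ∀ k, (m k).1 ∈ Q.B k,
            ∑ far : (rg Q).Cm → Bool, Lv (rg Q) m far (Q.fr m) := by
        refine Finset.sum_congr rfl fun m hm => ?_
        exact if_pos ((nine_iff (Finset.mem_filter.1 hm).2).2 h9)
      rw [h2, Finset.sum_comm, Finset.sum_congr rfl fun far _ => hL Q h9 far, ← Finset.mul_sum]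
      exact (if_pos h9).symm
    · rw [Finset.sum_eq_zero fun m hm => ?_]
      · exact (if_neg h9).symm
      · exact if_neg fun h => h9 ((nine_iff (Finset.mem_filter.1 hm).2).1 h)
  rw [e1, sum_J95]
  refine Eq.trans (Finset.sum_congr rfl fun Q _ => e2 Q) ?_
  refine sum_val val C (H503.str F) (fun p q σ e c => if h : p ≤ q ∧ q ≤ 6 then
    ∑ far : (rg (enc c.1 c.2.2 h.1 h.2 σ e c.2.1)).Cm → Bool,
      piece (rg (enc c.1 c.2.2 h.1 h.2 σ e c.2.1)) X far (gB (enc c.1 c.2.2 h.1 h.2 σ e c.2.1))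
    else 0) (fun Q hQ => ?_) (fun p q hp hq σ e c hN => ?_) fun p q hp hq σ e => ?_
  · by_cases h9 : ∑ k, (Q.B k).card = 9
    · rw [show val Q = _ from if_pos h9, h0 Q hQ h9, zero_mul]
    · exact if_neg h9
  · rw [show val (enc c.1 c.2.2 hp hq σ e c.2.1) = _ from if_pos (enc_good hp hq σ).1,
      h1 p q hp hq σ e c hN, dif_pos ⟨hp, hq⟩]
  · rw [← hP p q hp hq σ e]
    exact Finset.sum_congr rfl fun c _ => dif_pos ⟨hp, hq⟩

end Vale.Agent.P273.H93

end
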